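import Crest.Agent.N221.Ni.Defs
import Crest.Agent.N221.Ex.Inst

/-! Row 221, block Ni (helper84): basic facts on unit vectors of the cover and lifted charts. -/

set_option autoImplicit false

open Set Filter Topology Metric
open scoped ContDiff RealInnerProductSpace
open Crest.GeometryTopology.Submanifold
open Crest.Agent.R241.DDefs Crest.Agent.R241.D2
open Crest.Agent.R208.J Crest.Agent.R208.L

noncomputable section

namespace Crest.Agent.N221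

/-- a deck map on unit vectors -/
def dg {n N : ℕ} (g : Euc n → Euc n) (p : Euc n × Euc N) : Euc n × Euc N := (g p.1, p.2)

namespace Cov

variable {n N m : ℕ} {a : ℝ} {S : Set (Euc N)} {G : Geo n N (-(a ^ 2)) S} (C : Cov G)
variable {f f' f'' : FF n N m} {y y' w : ZL m} {p q r : Euc n × Euc N} {g k : Euc n → Euc n}
  {s t t' : ℝ}

open Ex

lemma fu_zero (p : Euc n × Euc N) : C.fu 0 p = p := by simp [fu, C.gd_zero, C.vel_zero]

lemma un_fu (hp : C.Un p.1 p.2) (t : ℝ) : C.Un (C.fu t p).1 (C.fu t p).2 := hp.vel C t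

lemma fu_add (hp : C.Un p.1 p.2) (s t : ℝ) : C.fu s (C.fu t p) = C.fu (t + s) p := by
  simp only [fu, C.gd_add (hp.mem C), C.vel_add (hp.mem C)]

lemma mv_eq (g : Euc n → Euc n) (t : ℝ) (p : Euc n × Euc N) : C.mv g t p = dg g (C.fu t p) := rfl

lemma un_dg (hg : C.Deck g) : C.Un (dg g p).1 (dg g p).2 ↔ C.Un p.1 p.2 := hg.un C

lemma un_mv (hg : C.Deck g) (hp : C.Un p.1 p.2) (t : ℝ) : C.Un (C.mv g t p).1 (C.mv g t p).2 :=
  (C.un_dg hg).2 (C.un_fu hp t)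

lemma fu_dg (hg : C.Deck g) (hp : C.Un p.1 p.2) (t : ℝ) : C.fu t (dg g p) = dg g (C.fu t p) := by
  simp only [fu, dg, hg.gd_eq C (hp.mem C), hg.vel_eq C]

omit C in
lemma dg_inv (i : ∀ x, k (g x) = x) (p : Euc n × Euc N) : dg k (dg g p) = p := by simp [dg, i]

lemma mv_mv (hg : C.Deck g) (hp : C.Un p.1 p.2) (k : Euc n → Euc n) (s t : ℝ) :
    C.mv k s (C.mv g t p) = C.mv (k ∘ g) (t + s) p := by
  rw [mv_eq, mv_eq, mv_eq, C.fu_dg hg (C.un_fu hp t), C.fu_add hp]; rfl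


lemma du_nonneg (p q : Euc n × Euc N) : 0 ≤ C.du p q := le_max_of_le_right (norm_nonneg _)

lemma du_self (p : Euc n × Euc N) : C.du p p = 0 := by simp [du, C.dd_self]

lemma du_comm (p q : Euc n × Euc N) : C.du p q = C.du q p := by
  rw [du, du, C.dd_comm, norm_sub_rev]

lemma dd_le_du (p q : Euc n × Euc N) : C.dd p.1 q.1 ≤ C.du p q := le_max_left _ _

lemma norm_le_du (p q : Euc n × Euc N) : ‖p.2 - q.2‖ ≤ C.du p q := le_max_right _ _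

lemma du_triangle (ha : 0 ≤ a) (p q r : Euc n × Euc N) : C.du p r ≤ C.du p q + C.du q r :=
  max_le ((C.dd_triangle ha _ q.1 _).trans (add_le_add (C.dd_le_du _ _) (C.dd_le_du _ _)))
    ((norm_sub_le_norm_sub_add_norm_sub _ q.2 _).trans
      (add_le_add (C.norm_le_du _ _) (C.norm_le_du _ _)))

lemma eq_of_du (h : C.du p q = 0) : p = q :=
  Prod.ext (C.eq_of_dd (le_antisymm (h ▸ C.dd_le_du p q) (C.dd_nonneg _ _)))
    (sub_eq_zero.1 (norm_le_zero_iff.1 (h ▸ C.norm_le_du p q)))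


/-- pairs with the distance `du` -/
def UP (_ : Cov G) : Type := Euc n × Euc N

/-- the metric `du` -/
@[reducible] def ms (ha : 0 ≤ a) : MetricSpace C.UP where
  dist := C.du
  dist_self := C.du_self
  dist_comm := C.du_comm
  dist_triangle := C.du_triangle ha
  eq_of_dist_eq_zero := C.eq_of_du

lemma bv_fw (f : FF n N m) (t : ℝ) : bv (C.fw f t) = C.fu t (bv f) := rfl



lemma exists_bv (hm : m + 1 = n) (hp : C.Un p.1 p.2) : ∃ f : FF n N m, C.Frm f ∧ bv f = p := by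
  obtain ⟨L, hL⟩ := C.exists_frm hm hp
  exact ⟨_, hL, rfl⟩

lemma Sss.refl (p : Euc n × Euc N) : C.Sss p p := ⟨rfl, rfl⟩

lemma Suu.refl (p : Euc n × Euc N) : C.Suu p p := ⟨rfl, rfl⟩

variable {C} in
lemma Sss.symm (h : C.Sss p q) : C.Sss q p := ⟨h.1.symm, by rw [h.1]; exact h.2.symm⟩

variable {C} in
lemma Suu.symm (h : C.Suu p q) : C.Suu q p := ⟨h.1.symm, by rw [h.1]; exact h.2.symm⟩

variable {C} in
lemma Sss.trans (h : C.Sss p q) (h' : C.Sss q r) : C.Sss p r :=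
  ⟨h'.1.trans h.1, by have := h'.2; rw [h.1] at this; exact this.trans h.2⟩

variable {C} in
lemma Suu.trans (h : C.Suu p q) (h' : C.Suu q r) : C.Suu p r :=
  ⟨h'.1.trans h.1, by have := h'.2; rw [h.1] at this; exact this.trans h.2⟩

section ha

variable (ha : 0 < a)
include ha

lemma ep_fu (hp : C.Un p.1 p.2) (t : ℝ) : C.ep (C.fu t p).1 (C.fu t p).2 = C.ep p.1 p.2 :=
  C.ep_gd ha hp t

lemma ep_fu_neg (hp : C.Un p.1 p.2) (t : ℝ) :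
    C.ep (C.fu t p).1 (-(C.fu t p).2) = C.ep p.1 (-p.2) := C.ep_gd_neg ha hp t

lemma b_fu (hp : C.Un p.1 p.2) (t : ℝ) :
    C.b (C.ep p.1 p.2) (C.fu t p).1 = C.b (C.ep p.1 p.2) p.1 - t := by
  have := C.b_gd ha (C.ep_ne_zero ha hp) p.1 t
  rwa [C.W_ep_self ha hp] at this

lemma b_fu_neg (hp : C.Un p.1 p.2) (t : ℝ) :
    C.b (C.ep p.1 (-p.2)) (C.fu t p).1 = C.b (C.ep p.1 (-p.2)) p.1 + t := by
  have := C.b_gd ha (C.ep_ne_zero ha (hp.neg C)) p.1 (-t)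
  rw [C.W_ep_self ha (hp.neg C), C.gd_neg, neg_neg] at this
  simpa [fu] using this

variable {C} in
lemma Sss.fu (h : C.Sss p q) (hp : C.Un p.1 p.2) (hq : C.Un q.1 q.2) (t : ℝ) :
    C.Sss (C.fu t p) (C.fu t q) := by
  refine ⟨by rw [C.ep_fu ha hp, C.ep_fu ha hq, h.1], ?_⟩
  have := C.b_fu ha hq t
  rw [h.1] at this
  rw [C.ep_fu ha hp, this, C.b_fu ha hp, h.2]

variable {C} in
lemma Suu.fu (h : C.Suu p q) (hp : C.Un p.1 p.2) (hq : C.Un q.1 q.2) (t : ℝ) :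
    C.Suu (C.fu t p) (C.fu t q) := by
  refine ⟨by rw [C.ep_fu_neg ha hp, C.ep_fu_neg ha hq, h.1], ?_⟩
  have := C.b_fu_neg ha hq t
  rw [h.1] at this
  rw [C.ep_fu_neg ha hp, this, C.b_fu_neg ha hp, h.2]

variable {C} in
lemma Sss.dg (h : C.Sss p q) (hp : C.Un p.1 p.2) (hq : C.Un q.1 q.2) (hg : C.Deck g) :
    C.Sss (dg g p) (dg g q) := by
  have e1 := C.act_ep ha hg hp
  have e2 := C.act_ep ha hg hq
  refine ⟨by simp only [N221.dg]; rw [← e1, ← e2, h.1], ?_⟩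
  simp only [N221.dg]
  rw [← e1, C.b_act ha hg (C.ep_ne_zero ha hp), C.b_act ha hg (C.ep_ne_zero ha hp), h.2]

variable {C} in
lemma Suu.dg (h : C.Suu p q) (hp : C.Un p.1 p.2) (hq : C.Un q.1 q.2) (hg : C.Deck g) :
    C.Suu (dg g p) (dg g q) := by
  have e1 := C.act_ep ha hg (hp.neg C)
  have e2 := C.act_ep ha hg (hq.neg C)
  refine ⟨by simp only [N221.dg]; rw [← e1, ← e2, h.1], ?_⟩
  simp only [N221.dg]
  rw [← e1, C.b_act ha hg (C.ep_ne_zero ha (hp.neg C)),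
    C.b_act ha hg (C.ep_ne_zero ha (hp.neg C)), h.2]

end ha

lemma Ps_add (h : C.Un (C.hy f y.1.1) (C.uv f y.1)) (t : ℝ) :
    C.Ps f (y.1, y.2 + t) = C.fu t (C.Ps f y) := by
  rw [Ps, Ps, C.fu_add (p := (C.hy f y.1.1, C.uv f y.1)) h]

lemma Lt_fst (f f' : FF n N m) (t : ℝ) (y : ZL m) : (C.Lt f f' t y).1 = C.Tf f f' y.1 := rfl

variable (H : Hyp n N a S)
include H

lemma un_Ps (hf : C.Frm f) (hy : y.1 ∈ C.Dm f) : C.Un (C.Ps f y).1 (C.Ps f y).2 :=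
  C.un_fu (p := (C.hy f y.1.1, C.uv f y.1)) (C.un_uv H hf hy) _

lemma Ps_zero (hf : C.Frm f) : C.Ps f 0 = bv f := by
  rw [Ps]
  simp only [Prod.fst_zero, Prod.snd_zero, C.fu_zero, C.hy_zero, C.uv_zero H hf, bv]

lemma Ps_fg (hf : C.Frm f) (hg : C.Deck g) (hy : y.1 ∈ C.Dm f) :
    C.Ps (fg g f) y = dg g (C.Ps f y) := by
  rw [Ps, Ps, C.hy_fg hf hg, C.uv_fg hf hg,
    ← C.fu_dg (p := (C.hy f y.1.1, C.uv f y.1)) hg (C.un_uv H hf hy)]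
  rfl

lemma ep_Ps (hf : C.Frm f) (hy : y.1 ∈ C.Dm f) :
    C.ep (C.Ps f y).1 (C.Ps f y).2 = (C.ge f y.1).1 :=
  C.ep_fu (p := (C.hy f y.1.1, C.uv f y.1)) H.a_pos (C.un_uv H hf hy) _


lemma b_Ps (hf : C.Frm f) (hy : y.1 ∈ C.Dm f) : C.b (C.ge f y.1).1 (C.Ps f y).1 =
    C.b (C.ge f y.1).1 f.1 - C.bq f (C.ge f y.1).1 y.1.1 - y.2 := by
  have := C.b_fu (p := (C.hy f y.1.1, C.uv f y.1)) H.a_pos (C.un_uv H hf hy) y.2
  rw [bq, sub_sub_cancel]; exact this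


/-- the strong stable leaves in the lifted chart -/
lemma sss_iff (hf : C.Frm f) (hy : y.1 ∈ C.Dm f) (hy' : y'.1 ∈ C.Dm f) :
    C.Sss (C.Ps f y) (C.Ps f y') ↔ (C.ge f y'.1).1 = (C.ge f y.1).1 ∧
      y'.2 + C.bq f (C.ge f y.1).1 y'.1.1 = y.2 + C.bq f (C.ge f y.1).1 y.1.1 := by
  rw [Sss, C.ep_Ps H hf hy, C.ep_Ps H hf hy']
  refine and_congr_right fun h => ?_
  have := C.b_Ps H hf hy'
  rw [h] at this
  rw [this, C.b_Ps H hf hy]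
  constructor <;> intro h <;> linarith


variable (hm : m + 1 = n)
include hm

lemma un_Ps' (hf : C.Frm f) (hy : ‖y.1‖ < C.rr m) : C.Un (C.Ps f y).1 (C.Ps f y).2 :=
  C.un_Ps H hf (C.Dm_lt H hm hf hy)

/-- `Lt` is the flow -/
lemma Ps_Lt (hf : C.Frm f) (hf' : C.Frm f') (hy : y.1 ∈ C.dm f f') (t : ℝ) :
    C.Ps f' (C.Lt f f' t y) = C.fu t (C.Ps f y) := by
  obtain ⟨e1, e2⟩ := C.hy_Tf H hm hf hf' hy
  have hu := C.un_uv H hf (C.Dm_lt H hm hf hy.1)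
  have e : (C.hy f' (C.Tf f f' y.1).1, C.uv f' (C.Tf f f' y.1)) =
      C.fu (C.tm f f' y.1) (C.hy f y.1.1, C.uv f y.1) := Prod.ext e1 e2
  rw [Ps, Ps, Lt]
  simp only
  rw [e, C.fu_add (p := (C.hy f y.1.1, C.uv f y.1)) hu, C.fu_add (p := (C.hy f y.1.1, C.uv f y.1)) hu]
  congr 1; ring

/-- LOC: the converse -/
lemma loc (hf : C.Frm f) (hf' : C.Frm f') (hy : ‖y.1‖ < C.rr m) (hy' : ‖y'.1‖ < C.rr m)
    (h : C.Ps f' y' = C.fu t (C.Ps f y)) : y.1 ∈ C.dm f f' ∧ C.Lt f f' t y = y' := by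
  have hu := C.un_uv H hf (C.Dm_lt H hm hf hy)
  have hu' := C.un_uv H hf' (C.Dm_lt H hm hf' hy')
  have e : (C.hy f' y'.1.1, C.uv f' y'.1) = C.fu (y.2 + t - y'.2) (C.hy f y.1.1, C.uv f y.1) := by
    have := congrArg (C.fu (-y'.2)) h
    rw [Ps, Ps, C.fu_add (p := (C.hy f' y'.1.1, C.uv f' y'.1)) hu', add_neg_cancel, C.fu_zero,
      C.fu_add (p := (C.hy f y.1.1, C.uv f y.1)) hu,
      C.fu_add (p := (C.hy f y.1.1, C.uv f y.1)) hu] at this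
    rw [this, sub_eq_add_neg]
  obtain ⟨k1, k2, k3⟩ := C.Tf_of_gd H hm hf hf' hy hy' (congrArg Prod.fst e) (congrArg Prod.snd e)
  refine ⟨k1, Prod.ext k2 ?_⟩
  simp only [Lt, k3]; ring

/-- LOC for moves -/
lemma loc_mv (hf : C.Frm f) (hf' : C.Frm f') (hk : C.Deck k) (i : ∀ x, k (g x) = x)
    (hy : ‖y.1‖ < C.rr m) (hy' : ‖y'.1‖ < C.rr m) (h : C.mv g t (C.Ps f y) = C.Ps f' y') :
    y.1 ∈ C.dm f (fg k f') ∧ C.Lt f (fg k f') t y = y' := by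
  refine C.loc H hm hf (hf'.fg C hk) hy hy' ?_
  rw [C.Ps_fg H hf' hk (C.Dm_lt H hm hf' hy'), ← h, mv_eq, dg_inv i]

lemma Ps_inj (hf : C.Frm f) (hy : ‖y.1‖ < C.rr m) (hy' : ‖y'.1‖ < C.rr m)
    (h : C.Ps f y = C.Ps f y') : y = y' := by
  have h1 := (C.loc H hm (t := 0) hf hf hy hy' (by rw [C.fu_zero, h])).2
  have h2 := (C.loc H hm (t := 0) hf hf hy hy (by rw [C.fu_zero])).2
  rw [← h1, h2]

lemma norm_Lt (hf' : C.Frm f') (hy : y.1 ∈ C.dm f f') (t : ℝ) : ‖(C.Lt f f' t y).1‖ < C.rr m :=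
  (C.Tf_spec H hm hf' hy).1

lemma Lt_comp (hf' : C.Frm f') (hf'' : C.Frm f'') (hy : y.1 ∈ C.dm f f')
    (hy' : (C.Lt f f' t y).1 ∈ C.dm f' f'') :
    y.1 ∈ C.dm f f'' ∧ C.Lt f' f'' t' (C.Lt f f' t y) = C.Lt f f'' (t + t') y := by
  obtain ⟨k1, k2, k3⟩ := C.Tf_comp H hm hf' hf'' hy hy'
  refine ⟨k1, Prod.ext k2.symm ?_⟩
  simp only [Lt, k3]; ring

lemma Lt_symm (hf : C.Frm f) (hf' : C.Frm f') (hy : y.1 ∈ C.dm f f') :
    (C.Lt f f' t y).1 ∈ C.dm f' f ∧ C.Lt f' f (-t) (C.Lt f f' t y) = y := by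
  obtain ⟨k1, k2, k3⟩ := C.Tf_symm H hm hf hf' hy
  refine ⟨k1, Prod.ext k2 ?_⟩
  simp only [Lt, k3]; ring


lemma contDiffAt_Lt (hf : C.Frm f) (hf' : C.Frm f') (hy : y.1 ∈ C.dm f f') (t : ℝ) :
    ContDiffAt ℝ ∞ (C.Lt f f' t) y :=
  ((C.contDiffAt_Tf H hm hf hf' hy).comp y contDiffAt_fst).prodMk
    ((contDiffAt_snd.sub ((C.contDiffAt_tm H hm hf hf' hy).comp y contDiffAt_fst)).add
      contDiffAt_const)

lemma ev_dmL (hf : C.Frm f) (hf' : C.Frm f') (hy : y.1 ∈ C.dm f f') :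
    ∀ᶠ x : ZL m in 𝓝 y, x.1 ∈ C.dm f f' :=
  continuous_fst.continuousAt.preimage_mem_nhds ((C.isOpen_dm H hm hf hf').mem_nhds hy)

lemma Lt_comp_ev (hf : C.Frm f) (hf' : C.Frm f') (hf'' : C.Frm f'') (hy : y.1 ∈ C.dm f f')
    (hy' : (C.Lt f f' t y).1 ∈ C.dm f' f'') :
    C.Lt f' f'' t' ∘ C.Lt f f' t =ᶠ[𝓝 y] C.Lt f f'' (t + t') := by
  filter_upwards [C.ev_dmL H hm hf hf' hy, (C.contDiffAt_Lt H hm hf hf' hy t).continuousAt.eventually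
    (C.ev_dmL H hm hf' hf'' hy')] with x h1 h2
  exact (C.Lt_comp H hm hf' hf'' h1 h2).2

lemma hasFDerivAt_Lt (hf : C.Frm f) (hf' : C.Frm f') (hy : y.1 ∈ C.dm f f') (t : ℝ) :
    HasFDerivAt (C.Lt f f' t) (fderiv ℝ (C.Lt f f' t) y) y :=
  ((C.contDiffAt_Lt H hm hf hf' hy t).differentiableAt (by simp)).hasFDerivAt

lemma fderiv_Lt (hf : C.Frm f) (hf' : C.Frm f') (hy : y.1 ∈ C.dm f f') (t : ℝ) (w : ZL m) :
    fderiv ℝ (C.Lt f f' t) y w =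
      (fderiv ℝ (C.Tf f f') y.1 w.1, w.2 - fderiv ℝ (C.tm f f') y.1 w.1) := by
  have h1 := ((C.contDiffAt_Tf H hm hf hf' hy).differentiableAt (by simp)).hasFDerivAt.comp y
    (hasFDerivAt_fst (𝕜 := ℝ) (p := y))
  have h2 := ((C.contDiffAt_tm H hm hf hf' hy).differentiableAt (by simp)).hasFDerivAt.comp y
    (hasFDerivAt_fst (𝕜 := ℝ) (p := y))
  have h3 := (h1.prodMk (((hasFDerivAt_snd (𝕜 := ℝ) (p := y)).sub h2).add_const t)).fderiv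
  exact congrArg (fun A : ZL m →L[ℝ] ZL m => A w) h3

lemma fderiv_Lt_comp (hf : C.Frm f) (hf' : C.Frm f') (hf'' : C.Frm f'') (hy : y.1 ∈ C.dm f f')
    (hy' : (C.Lt f f' t y).1 ∈ C.dm f' f'') (w : ZL m) :
    fderiv ℝ (C.Lt f' f'' t') (C.Lt f f' t y) (fderiv ℝ (C.Lt f f' t) y w) =
      fderiv ℝ (C.Lt f f'' (t + t')) y w := by
  rw [← (C.Lt_comp_ev H hm hf hf' hf'' hy hy').fderiv_eq,
    ((C.hasFDerivAt_Lt H hm hf' hf'' hy' t').comp y (C.hasFDerivAt_Lt H hm hf hf' hy t)).fderiv]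
  rfl

lemma fderiv_Lt_symm (hf : C.Frm f) (hf' : C.Frm f') (hy : y.1 ∈ C.dm f f') (w : ZL m) :
    fderiv ℝ (C.Lt f' f (-t)) (C.Lt f f' t y) (fderiv ℝ (C.Lt f f' t) y w) = w := by
  have e : C.Lt f' f (-t) ∘ C.Lt f f' t =ᶠ[𝓝 y] id := by
    filter_upwards [C.ev_dmL H hm hf hf' hy] with x h1
    exact (C.Lt_symm H hm hf hf' h1).2
  have h := ((C.hasFDerivAt_Lt H hm hf' hf (C.Lt_symm H hm (t := t) hf hf' hy).1 (-t)).comp y
    (C.hasFDerivAt_Lt H hm hf hf' hy t)).fderiv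
  rw [e.fderiv_eq, fderiv_id] at h
  exact (congrArg (fun A : ZL m →L[ℝ] ZL m => A w) h).symm

/-- the contact plane is invariant -/
lemma fderiv_Lt_lif (hf : C.Frm f) (hf' : C.Frm f') (hy : y.1 ∈ C.dm f f') (t : ℝ) (v : ZZ m) :
    fderiv ℝ (C.Lt f f' t) y (lif y.1 v) = lif (C.Tf f f' y.1) (fderiv ℝ (C.Tf f f') y.1 v) := by
  rw [C.fderiv_Lt H hm hf hf' hy, lif_apply, lif_apply, C.exact_Tf H hm hf hf' hy]
  exact Prod.ext rfl (by simp only; ring)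

lemma Euu.map (hf : C.Frm f) (hf' : C.Frm f') (hy : y.1 ∈ C.dm f f') (h : C.Euu f y w) (t : ℝ) :
    C.Euu f' (C.Lt f f' t y) (fderiv ℝ (C.Lt f f' t) y w) := by
  obtain ⟨e, rfl⟩ := h
  exact ⟨_, by rw [C.fderiv_Lt_lif H hm hf hf' hy, C.fderiv_Tf_u H hm hf hf' hy]; rfl⟩

lemma ub_tm (R : ℝ) : UB (fun p : {p : FF n N m × FF n N m //
      C.Frm p.1 ∧ C.Frm p.2 ∧ C.dd p.1.1 p.2.1 ≤ R} => C.dm p.1.1 p.1.2) fun p => C.tm p.1.1 p.1.2 :=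
  ⟨fun p => C.isOpen_dm H hm p.2.1 p.2.2.1,
    fun p _ hz => (C.contDiffAt_tm H hm p.2.1 p.2.2.1 hz).contDiffWithinAt, fun k => by
      obtain ⟨B, hB⟩ := C.jb_tm H hm R k
      exact ⟨max B 1, by positivity, fun p z hz =>
        (hB (p.1, z) ⟨p.2.1, p.2.2.1, p.2.2.2, hz⟩).trans (le_max_left _ _)⟩⟩

omit H hm in
/-- pairs of frames at distance `≤ R` with a time `≤ R` -/
def Ix (m : ℕ) (R : ℝ) : Type := {p : (FF n N m × FF n N m) × ℝ //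
  (C.Frm p.1.1 ∧ C.Frm p.1.2 ∧ C.dd p.1.1.1 p.1.2.1 ≤ R) ∧ |p.2| ≤ R}

omit H hm in
lemma ub_lift {ι : Type} {U : ι → Set (ZZ m)} {T : ι → ZZ m → ZZ m} {τ : ι → ZZ m → ℝ} {c : ι → ℝ}
    {R M : ℝ} (hT : UB U T) (hτ : UB U τ) (hc : ∀ i, |c i| ≤ R) (hU : ∀ i, ∀ z ∈ U i, ‖z‖ ≤ M) :
    UB (fun i => {y : ZL m | y.1 ∈ U i ∧ |y.2| < R}) fun i y => (T i y.1, y.2 - τ i y.1 + c i) := by
  have ho : ∀ i, IsOpen {y : ZL m | y.1 ∈ U i ∧ |y.2| < R} := fun i =>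
    ((hT.op i).preimage continuous_fst).inter
      (isOpen_lt (continuous_abs.comp continuous_snd) continuous_const)
  have hid := UB.id (M := max M R) ho fun i y hy => by
    rw [Prod.norm_def]; exact max_le_max (hU i _ hy.1) hy.2.le
  have h1 := hid.clm (ContinuousLinearMap.fst ℝ (ZZ m) ℝ)
  have h2 := hid.clm (ContinuousLinearMap.snd ℝ (ZZ m) ℝ)
  exact (hT.comp h1 fun _ _ hy => hy.1).prod ((h2.sub (hτ.comp h1 fun _ _ hy => hy.1)).add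
    (UB.const ho (M := R) hc))

/-- the lifted transitions between frames at bounded distance are uniformly smooth -/
lemma ub_Lt (R : ℝ) : UB (fun p : C.Ix m R => {y : ZL m | y.1 ∈ C.dm p.1.1.1 p.1.1.2 ∧ |y.2| < R})
    fun p => C.Lt p.1.1.1 p.1.1.2 p.1.2 :=
  ub_lift (ι := C.Ix m R) (U := fun p => C.dm p.1.1.1 p.1.1.2) (T := fun p => C.Tf p.1.1.1 p.1.1.2)
    (τ := fun p => C.tm p.1.1.1 p.1.1.2) (c := fun p => p.1.2) (M := C.rr m)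
    ((C.ub_Tf H hm R).mono (fun p : C.Ix m R => ⟨p.1.1, p.2.1⟩)
      (fun p => C.isOpen_dm H hm p.2.1.1 p.2.1.2.1) fun _ => subset_rfl)
    ((C.ub_tm H hm R).mono (fun p : C.Ix m R => ⟨p.1.1, p.2.1⟩)
      (fun p => C.isOpen_dm H hm p.2.1.1 p.2.1.2.1) fun _ => subset_rfl)
    (fun p => p.2.2) fun _ _ hz => hz.1.le

end Cov

end Crest.Agent.N221
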