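import Crest.Agent.N221.Ni.Defs
import Crest.Agent.N221.C.Two
import Crest.Agent.N221.Dy.Hol

-- ▼ part N221/Ni/Fl
section

/-! Row 221, block Ni (helper93): `flS : FlS`. -/

set_option autoImplicit false

open Set Filter Topology Metric
open Crest.GeometryTopology.Submanifold
open Crest.Agent.R241.DDefs Crest.Agent.R241.D2
open Crest.Agent.R208.J Crest.Agent.R208.L

noncomputable section

namespace Crest.Agent.N221

namespace Cov.Fl

variable {n N : ℕ} {a : ℝ} {S : Set (Euc N)} {G : Geo n N (-(a ^ 2)) S} (C : Cov G)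
  {p q : Euc n × Euc N}

lemma dd_le (p q : Euc n × Euc N) : C.dd p.1 q.1 ≤ C.du p q := le_max_left _ _
lemma nm_le (p q : Euc n × Euc N) : ‖p.2 - q.2‖ ≤ C.du p q := le_max_right _ _
lemma nn (p q : Euc n × Euc N) : 0 ≤ C.du p q := (norm_nonneg _).trans (nm_le C p q)

lemma un (hp : C.Un p.1 p.2) (t : ℝ) : C.Un (C.fu t p).1 (C.fu t p).2 := hp.vel C t

lemma add (hp : C.Un p.1 p.2) (s t : ℝ) : C.fu t (C.fu s p) = C.fu (s + t) p :=
  Prod.ext (C.gd_add (hp.mem C) s t) (C.vel_add (hp.mem C) s t)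

lemma zero (p : Euc n × Euc N) : C.fu 0 p = p := Prod.ext (C.gd_zero _ _) (C.vel_zero _ _)

variable (H : Hyp n N a S)
include H

/-- `du` is controlled by two positions -/
lemma up : ∃ K : ℝ, 1 ≤ K ∧ ∀ p q : Euc n × Euc N, C.Un p.1 p.2 → C.Un q.1 q.2 → ∀ t B : ℝ,
    C.dd (C.gd p.1 p.2 t) (C.gd q.1 q.2 t) ≤ B →
    C.dd (C.gd p.1 p.2 (t + 1)) (C.gd q.1 q.2 (t + 1)) ≤ B →
    C.du (C.fu t p) (C.fu t q) ≤ K * B := by
  obtain ⟨K, K0, h⟩ := C.up_close H
  refine ⟨2 * K + 1, by linarith, fun p q hp hq t B h1 h2 => ?_⟩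
  have B0 : 0 ≤ B := (C.dd_nonneg _ _).trans h1
  have h3 := (le_max_right _ _).trans (h _ _ _ _ (hp.vel C t) (hq.vel C t) 1 (Or.inl rfl))
  rw [C.gd_add (hp.mem C), C.gd_add (hq.mem C), dist_eq_norm] at h3
  refine max_le (h1.trans (by nlinarith)) (h3.trans ?_)
  nlinarith [mul_le_mul_of_nonneg_left (add_le_add h1 h2) K0.le]

lemma short : ∃ K : ℝ, 1 ≤ K ∧ ∀ p q : Euc n × Euc N, C.Un p.1 p.2 → C.Un q.1 q.2 → ∀ t : ℝ,
    |t| ≤ 1 → C.du (C.fu t p) (C.fu t q) ≤ K * C.du p q := by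
  have ha := H.a_pos.le
  obtain ⟨K, K0, h⟩ := C.gd_close H 2
  obtain ⟨K', K1, h'⟩ := up C H
  refine ⟨K' * (2 * K + 3), by nlinarith, fun p q hp hq t ht => ?_⟩
  have key : ∀ s : ℝ, |s| ≤ 2 →
      C.dd (C.gd p.1 p.2 s) (C.gd q.1 q.2 s) ≤ (2 * K + 3) * C.du p q := fun s hs => by
    have a1 := dd_le C p q; have a2 := nm_le C p q; have a3 := nn C p q
    by_cases hd : C.dd p.1 q.1 ≤ 2
    · refine (h _ _ _ _ hp hq hd s hs).trans ?_
      nlinarith [mul_le_mul_of_nonneg_left (add_le_add a1 a2) K0.le]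
    · have b1 := C.dd_triangle ha (C.gd p.1 p.2 s) p.1 (C.gd q.1 q.2 s)
      have b2 := C.dd_triangle ha p.1 q.1 (C.gd q.1 q.2 s)
      rw [C.dd_comm _ p.1, hp.dd_gd_zero] at b1
      rw [hq.dd_gd_zero] at b2
      nlinarith [mul_nonneg K0.le a3]
  rw [mul_assoc]
  exact h' p q hp hq t _ (key t (by linarith)) (key _ ((abs_add_le _ _).trans (by
    rw [abs_one]; linarith)))

lemma long : ∃ K Λ : ℝ, 1 ≤ K ∧ 0 < Λ ∧ ∀ p q : Euc n × Euc N, C.Un p.1 p.2 → C.Un q.1 q.2 →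
    ∀ t, C.du (C.fu t p) (C.fu t q) ≤ K * Real.exp (Λ * |t|) * C.du p q := by
  obtain ⟨K, K1, h⟩ := short C H
  have l0 := Real.log_nonneg K1
  refine ⟨K, Real.log K + 1, K1, by linarith, fun p q hp hq t => ?_⟩
  have key : ∀ (k : ℕ) (t : ℝ), |t| ≤ k → C.du (C.fu t p) (C.fu t q) ≤ K ^ k * C.du p q := by
    intro k
    induction k with
    | zero => intro t ht; rw [Nat.cast_zero, abs_nonpos_iff] at ht; simp [ht, zero]
    | succ k ih =>
      intro t ht
      have k0 : (0 : ℝ) < k + 1 := by positivity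
      have e : t = k * (t / (k + 1)) + t / (k + 1) := by field_simp
      have h1 : |t / (k + 1)| ≤ 1 := by
        rw [abs_div, abs_of_pos k0, div_le_one k0]; exact_mod_cast ht
      rw [e, ← add C hp, ← add C hq, pow_succ', mul_assoc]
      refine (h _ _ (un C hp _) (un C hq _) _ h1).trans (mul_le_mul_of_nonneg_left (ih _ ?_)
        (by linarith))
      rw [abs_mul, Nat.abs_cast]
      exact mul_le_of_le_one_right k.cast_nonneg h1
  refine (key _ t (Nat.le_ceil _)).trans (mul_le_mul_of_nonneg_right ?_ (nn C p q))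
  have h1 := (Nat.ceil_lt_add_one (abs_nonneg t)).le
  calc K ^ ⌈|t|⌉₊ = Real.exp (Real.log K * ⌈|t|⌉₊) := by
        rw [mul_comm, Real.exp_nat_mul, Real.exp_log (by linarith)]
    _ ≤ Real.exp (Real.log K + (Real.log K + 1) * |t|) := by
        refine Real.exp_le_exp.2 ?_
        nlinarith [mul_le_mul_of_nonneg_left h1 l0, abs_nonneg t]
    _ = _ := by rw [Real.exp_add, Real.exp_log (by linarith)]

lemma ss : ∃ K : ℝ, 1 ≤ K ∧ ∀ p q : Euc n × Euc N, C.Un p.1 p.2 → C.Un q.1 q.2 → C.Sss p q →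
    C.du p q ≤ 1 → ∀ t, 0 ≤ t →
      C.du (C.fu t p) (C.fu t q) ≤ K * Real.exp (-(a * t)) * C.du p q := by
  have ha := H.a_pos
  obtain ⟨K, K1, h⟩ := up C H
  have e1 := Real.one_le_exp ha.le
  refine ⟨K * (2 * Real.exp a), by nlinarith, fun p q hp hq hs hd t ht => ?_⟩
  have h1 : C.asy p.1 p.2 q.1 = q.2 := by rw [← C.W_ep ha hp, ← hs.1, C.W_ep_self ha hq]
  have h2 : C.bus p.1 p.2 q.1 = 0 := by
    have a1 := hs.2
    have a2 := C.bus_gd ha hp 0
    rw [C.gd_zero] at a2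
    rw [C.b_ep ha hp, C.b_ep ha hp] at a1
    linarith
  have key : ∀ s, t ≤ s → C.dd (C.gd p.1 p.2 s) (C.gd q.1 q.2 s) ≤
      2 * Real.exp a * Real.exp (-(a * t)) * C.du p q := fun s hs => by
    have a1 := C.asy_tail ha hp q.1 (ht.trans hs)
    rw [h1, h2, sub_zero, C.dd_comm] at a1
    have d0 := C.dd_nonneg p.1 q.1
    have a2 := Tw.sinh_le ha d0 ((dd_le C p q).trans hd)
    have a3 := dd_le C p q
    calc _ ≤ 2 / a * Real.exp (-(a * t)) * (a * Real.exp a * C.du p q) := by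
          refine a1.trans ?_
          have : 0 ≤ Real.sinh (a * C.dd p.1 q.1) := Real.sinh_nonneg_iff.2 (by positivity)
          gcongr
          exact a2.trans (by gcongr)
      _ = _ := by field_simp
  refine (h p q hp hq t _ (key t le_rfl) (key _ (by linarith))).trans_eq (by ring)

end Cov.Fl

open Cov Cov.Fl in
theorem flS : FlS := by
  intro n N a S G C H
  obtain ⟨K, Λ, K1, hΛ, h⟩ := long C H
  obtain ⟨K', K1', h'⟩ := ss C H
  refine ⟨max K K', Λ, le_max_of_le_left K1, hΛ, fun p q hp hq => ⟨fun t => (h p q hp hq t).trans ?_,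
    fun hs hd t ht => (h' p q hp hq hs hd t ht).trans ?_, fun hs hd t ht => ?_⟩⟩
  · have := nn C p q; gcongr; exact le_max_left _ _
  · have := nn C p q; gcongr; exact le_max_right _ _
  · have e : ∀ p q : Euc n × Euc N, C.du (p.1, -p.2) (q.1, -q.2) = C.du p q := fun p q => by
      simp only [du, neg_sub_neg, norm_sub_rev q.2]
    have e' : ∀ p : Euc n × Euc N, C.Un p.1 p.2 →
        C.fu t (p.1, -p.2) = ((C.fu (-t) p).1, -(C.fu (-t) p).2) := fun p hp =>
      Prod.ext (C.gd_neg _ _ _) (C.vel_neg (hp.mem C) _)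
    have := h' (p.1, -p.2) (q.1, -q.2) (hp.neg C) (hq.neg C) hs (by rwa [e]) t ht
    rw [e' p hp, e' q hq, e, e] at this
    refine this.trans ?_
    have := nn C p q; gcongr; exact le_max_right _ _

end Crest.Agent.N221
end
end

-- ▼ part N221/Ni/Ps

/-! Row 221, block Ni (helper93): `psS : PsS`. -/

set_option autoImplicit false

open Set Filter Topology Metric
open Crest.GeometryTopology.Submanifold
open Crest.Agent.R241.DDefs Crest.Agent.R241.D2
open Crest.Agent.R208.J Crest.Agent.R208.L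

noncomputable section

namespace Crest.Agent.N221

namespace Cov.Fl

variable {n N m : ℕ} {a : ℝ} {S : Set (Euc N)} {G : Geo n N (-(a ^ 2)) S} (C : Cov G)
  (H : Hyp n N a S)
include H

lemma tri (p q r : Euc n × Euc N) : C.du p r ≤ C.du p q + C.du q r :=
  max_le ((C.dd_triangle H.a_pos.le _ q.1 _).trans (add_le_add (dd_le C p q) (dd_le C q r)))
    ((norm_sub_le_norm_sub_add_norm_sub _ q.2 _).trans (add_le_add (nm_le C p q) (nm_le C q r)))

/-- the flow is Lipschitz in the time -/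
lemma time : ∃ K : ℝ, 1 ≤ K ∧ ∀ p : Euc n × Euc N, C.Un p.1 p.2 → ∀ s t : ℝ,
    C.du (C.fu s p) (C.fu t p) ≤ K * |s - t| := by
  obtain ⟨K, K1, h⟩ := up C H
  refine ⟨K, K1, fun p hp s t => ?_⟩
  have := h (C.fu s p) (C.fu t p) (un C hp s) (un C hp t) 0 |s - t| (by
    rw [C.gd_zero, C.gd_zero, abs_sub_comm]; exact (hp.dd_gd C s t).le) (by
    change C.dd (C.fu (0 + 1) (C.fu s p)).1 (C.fu (0 + 1) (C.fu t p)).1 ≤ _
    rw [add C hp, add C hp, abs_sub_comm]
    exact (hp.dd_gd C _ _).trans_le (by ring_nf; rfl))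
  rwa [zero, zero] at this

lemma hy_lip (hm : m + 1 = n) {f : FF n N m} (hf : C.Frm f) {q q' : Euc m}
    (hq : ‖q‖ ≤ 2 * C.rr m) (hq' : ‖q'‖ ≤ 2 * C.rr m) :
    C.dd (C.hy f q) (C.hy f q') ≤ 2 * ‖q - q'‖ := by
  have hd : ∀ u : ℝ, HasDerivAt (fun u : ℝ => q + u • (q' - q)) (q' - q) u := fun u => by
    simpa using ((hasDerivAt_id u).smul_const (q' - q)).const_add q
  have := C.dd_le_of_deriv H.a_pos.le (c := fun u : ℝ => C.hy f (q + u • (q' - q)))
    (c' := fun u => fderiv ℝ (C.hy f) (q + u • (q' - q)) (q' - q)) (L := 2 * ‖q - q'‖) zero_le_one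
    (fun u _ => (((C.contDiff_hy' f).differentiable (by simp) _).hasFDerivAt.comp_hasDerivAt u
      (hd u)).hasDerivWithinAt) fun u hu => by
      have h1 : ‖q + u • (q' - q)‖ ≤ 2 * C.rr m := mem_closedBall_zero_iff.1
        ((convex_closedBall (0 : Euc m) _).add_smul_sub_mem (mem_closedBall_zero_iff.2 hq)
          (mem_closedBall_zero_iff.2 hq') hu)
      have h2 := (C.Jh f (q + u • (q' - q))).le_of_opNorm_le ((C.rad H hm).J_le f hf _ h1) (q' - q)
      rw [C.Jh_eq, norm_sub_rev q'] at h2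
      exact h2
  simpa using this

end Cov.Fl

open Cov Cov.Fl in
theorem psS : PsS := by
  intro n N m a S G C H hm
  obtain ⟨K1, h1, a1⟩ := short C H
  obtain ⟨K2, h2, a2⟩ := time C H
  obtain ⟨K3, h3, a3⟩ := C.uv_lip H hm
  obtain ⟨K4, δ, h4, hδ, a4⟩ := C.near_chart H hm
  have r0 := C.rr_pos H hm
  refine ⟨K2 + K1 * (K3 + 2) + K4, δ, by nlinarith, hδ, fun f hf =>
    ⟨fun y y' hy hy' hs hs' => ?_, fun p hp hd => ?_⟩⟩
  · have b1 : ‖y.1‖ ≤ 2 * C.rr m := by linarith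
    have b2 : ‖y'.1‖ ≤ 2 * C.rr m := by linarith
    have u1 := C.un_uv H hf (C.Dm_of_le H hm hf b1)
    have u2 := C.un_uv H hf (C.Dm_of_le H hm hf b2)
    have n0 := norm_nonneg (y - y')
    have n1 : ‖y.1 - y'.1‖ ≤ ‖y - y'‖ := norm_fst_le (y - y')
    have n2 : |y.2 - y'.2| ≤ ‖y - y'‖ := norm_snd_le (y - y')
    have n3 : ‖y.1.1 - y'.1.1‖ ≤ ‖y.1 - y'.1‖ := norm_fst_le (y.1 - y'.1)
    have c1 := a2 (C.hy f y.1.1, C.uv f y.1) u1 y.2 y'.2
    have c2 := a1 (C.hy f y.1.1, C.uv f y.1) (C.hy f y'.1.1, C.uv f y'.1) u1 u2 y'.2 hs'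
    have c3 : C.du (C.hy f y.1.1, C.uv f y.1) (C.hy f y'.1.1, C.uv f y'.1) ≤ (K3 + 2) * ‖y - y'‖ :=
      max_le ((hy_lip C H hm hf ((norm_fst_le _).trans b1) ((norm_fst_le _).trans b2)).trans
        (by nlinarith)) ((a3 f _ _ hf b1 b2).trans (by nlinarith))
    refine (tri C H _ _ _).trans ((add_le_add c1 c2).trans ?_)
    nlinarith [mul_le_mul_of_nonneg_left c3 (zero_le_one.trans h1),
      mul_le_mul_of_nonneg_left n2 (zero_le_one.trans h2)]
  · obtain ⟨z, t, b1, b2, b3, b4⟩ := a4 f p.1 p.2 _ hf hp hd (dd_le C (bv f) p)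
      ((norm_sub_rev _ _).trans_le (nm_le C (bv f) p))
    have n0 := nn C (bv f) p
    have e : K4 * C.du (bv f) p ≤ (K2 + K1 * (K3 + 2) + K4) * C.du (bv f) p :=
      mul_le_mul_of_nonneg_right (by nlinarith) n0
    refine ⟨(z, -t), max_le (b1.trans e) (by simpa using b2.trans e), ?_⟩
    have : (C.hy f z.1, C.uv f z) = C.fu t p := Prod.ext b3 b4
    rw [Ps, this, add C hp, add_neg_cancel, zero]

end Crest.Agent.N221
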