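import Crest.Agent.N221.G0.One
import Crest.Agent.N221.G0.Sm1
import Crest.Agent.N221.G0.SoA
import Crest.Agent.N221.G0.Sm3_Mg
import Crest.Agent.N221.G0.Sg_Mg
import Crest.Agent.N221.GI.Defs
import Crest.Agent.N221.Ch.Dmb
import Crest.Agent.N221.Dy.Hol
import Crest.Agent.N221.G0.Sys
import Crest.Agent.N221.G0.ISg
import Crest.Agent.N221.Dy.Bd
import Crest.Agent.N221.C.Two
import Crest.Agent.N221.Ni.Bas
import Crest.Agent.N221.NB.Defs
import Crest.Agent.N221.Dy.Sp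
import Crest.Agent.N221.A1.Bas
import Mathlib
import Crest.Agent.N221.Fr.Defs
import Crest.Agent.N221.Fr.Jf
import Crest.Agent.N221.Fr.Ri
import Crest.Agent.N221.Hu.SB2
import Crest.Agent.N221.Ni.Defs
import Crest.Agent.N221.Ch.Sym
import Crest.Agent.N221.Ni.Ps

-- ▼ part N221/G0/Lb
section

/-! Row 221, block G0 (helper62): `LbS`, the line box of a system. -/

set_option autoImplicit false
set_option linter.unusedSectionVars false

open Set Metric Filter Topology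
open scoped ContDiff

noncomputable section

namespace Crest.Agent.N221.G0

namespace Lb

open Sm1

variable {E W : Type} [NormedAddCommGroup E] [NormedSpace ℝ E] [NormedAddCommGroup W]
  [NormedSpace ℝ W] {S : Sy E W}

/-- points of the doubled working region label plaques of offset `r1 / 2` -/
lemma pq_two (h : S.Ok) (i : Bool) (f : S.F) {z : E × E} (hz : ‖z‖ < 2 * S.r2) :
    S.Pq i f z (S.r1 / 2) := by
  have h1 := r1_le h
  have h2 := R_le h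
  have h3 := r2_le h
  have h4 := h.r1p
  have hz0 : ‖z‖ < S.R0 := by linarith
  have h5 := g_lip h i f hz0 (y := 0) (y' := z.1) (mem_ball_self (by linarith))
    (mem_ball_zero_iff.2 ((norm_fst_le z).trans_lt hz0))
  rw [h.g_self i f z hz0, zero_sub, norm_neg] at h5
  have h6 : S.b0 * ‖z.1‖ ≤ S.b0 * (2 * S.r2) :=
    mul_le_mul_of_nonneg_left ((norm_fst_le z).trans hz.le) (by linarith [h.b01])
  refine ⟨hz0, ?_⟩
  linarith [norm_sub_norm_le (S.g i f z 0) z.2, norm_snd_le z, b0_r2 h]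

lemma ok (h : S.Ok) (n : ℕ) (f : S.F) : (S.lb n f).Ok := by
  have h1 := r1_le h
  have h2 := R_le h
  have h3 := r2_le h
  have h4 := h.r1p
  have hsub : ball (0 : E) S.R ⊆ ball 0 S.R0 := ball_subset_ball (by linarith)
  refine ⟨r2_pos h, ?_, ?_, ?_, ?_, ?_, fun z hz => ?_⟩
  · show 4 * S.r2 ≤ S.R
    linarith
  · show S.R ≤ 1
    linarith [h.R01]
  · exact ub_of_uj h.c1 (fun _ => isOpen_ball) fun x y hy => h.g_jet false f x x.2.1 y (hsub hy)
  · exact ub_of_uj h.c1 (fun _ => isOpen_ball) fun x y hy => h.g_jet true f x x.2.1 y (hsub hy)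
  · choose ν hν using fun x : {z // S.Pq true f z S.r1} => h.M_jet f x x.2.1
    have h5 : Ex.UB (fun _ => ball (0 : E) S.R) ν :=
      ub_of_uj h.c1 (fun _ => isOpen_ball) fun x y hy => (hν x y (hsub hy)).1
    have h6 : Ex.UB (fun _ => ball (0 : E) S.R)
        fun (x : {z // S.Pq true f z S.r1}) y => S.M f (S.pt true f x y) :=
      h5.congr fun x y hy => (hν x y (hsub hy)).2 (pt_mem h x.2 hy)
    have h7 := h6.clm (W := Vf W (n + 1) →L[ℝ] Vf W n) (ioW n)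
    exact h7
  · have h5 := pq_two h false f hz
    exact ⟨⟨z, pq_mono h5 (by linarith)⟩, h.g_self false f z h5.1⟩

/-- a relation of the line box is a relation of the system -/
lemma sr (h : S.Ok) {n N : ℕ} {f : S.F} {x : {z // S.Pq false f z S.r1}}
    {Θ : E → Vf W (n + 1)} {q : E} {ρ ε b : ℝ} (hΘ : (S.lb n f).SR N x Θ q ρ ε b) :
    S.SR n N f (S.pt false f x q) Θ ρ ε b := by
  have h1 := r1_le h
  have h2 := R_le h
  have h3 := r2_le h
  have h4 := h.r1p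
  have h5 : ‖S.pt false f x q‖ < 2 * S.r2 := hΘ.mem
  have h6 := h.g_lab false f x q x.2.1 (by linarith)
  refine ⟨by linarith, hΘ.pos, hΘ.le, hΘ.one, hΘ.sm, fun y hy => ?_, hΘ.bd⟩
  rw [Sy.pt, h6]
  exact hΘ.df y hy

end Lb

theorem lbS : LbS := by
  intro E W _ _ _ _ _ _ S h n f
  refine ⟨Lb.ok h n f, fun N a θ ⟨C, hC⟩ => ⟨C, fun x Θ Θ' q ρ ε b h1 h2 ψ hψ => ?_⟩⟩
  exact hC f _ Θ Θ' ρ ε b (Lb.sr h h1) (Lb.sr h h2) ψ hψ

end Crest.Agent.N221.G0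
end
end

-- ▼ part N221/G0/Main
section

/-! Row 221, block G0 (helper91): wiring. -/

set_option autoImplicit false

namespace Crest.Agent.N221.G0

theorem g0a_of3 (so : SoX) (ap : AprS) (fl : FldS) : G0A :=
  g0a_of rkS nrS uqS mxS z0S glS sgS bxS ubS stS (famS_of lbS (soS_of so) ap fl) L.ls

end Crest.Agent.N221.G0
end

-- ▼ part N221/GI/Hit
section

/-!
Row 221, G0 INSTANCE (helper72): the steps `BwdG` and `HitG` on the real charts.
-/

set_option autoImplicit false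

open MeasureTheory Set Filter Topology Metric
open scoped ContDiff RealInnerProductSpace ENNReal
open Crest.GeometryTopology.Submanifold
open Crest.Agent.R241.DDefs Crest.Agent.R241.D2
open Crest.Agent.R208.J Crest.Agent.R208.L

noncomputable section

namespace Crest.Agent.N221.Cov

variable {n N m : ℕ} {a : ℝ} {S : Set (Euc N)} {G : Geo n N (-(a ^ 2)) S} (C : Cov G)


omit C in
lemma HitP.small {K δ : ℝ} (hδ : 0 < δ) (hK : 0 ≤ K) :
    ∃ d, 0 < d ∧ ∀ R, 0 ≤ R → R ≤ d → K * R ≤ δ := by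
  refine ⟨δ / (K + 1), by positivity, fun R R0 h => ?_⟩
  rw [le_div_iff₀ (by positivity)] at h
  nlinarith

variable (H : Hyp n N a S) (hm : m + 1 = n)
include H hm



end Crest.Agent.N221.Cov
end
end

-- ▼ part N221/G0/IS
section

/-! Row 221, block G0 (helper94): the static fields of `G0.Sy.Ok` on the charts. -/

set_option autoImplicit false
set_option linter.unusedSectionVars false
set_option linter.unusedVariables false

open MeasureTheory Set Filter Topology Metric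
open scoped ContDiff RealInnerProductSpace ENNReal
open Crest.GeometryTopology.Submanifold
open Crest.Agent.R241.DDefs Crest.Agent.R241.D2
open Crest.Agent.R208.J Crest.Agent.R208.L

noncomputable section

namespace Crest.Agent.N221.Cov

variable {n N m : ℕ} {a : ℝ} {S : Set (Euc N)} {G : Geo n N (-(a ^ 2)) S} (C : Cov G)
variable {f f' f'' : FF n N m} {z z' : ZZ m} {x y y' ξ η : Euc n} {v u u' : Euc N} {q q' : Euc m}
  {g : Euc n → Euc n} {s t : ℝ}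

/-- graph function of the `i`-leaf through `z` -/
def gg (i : Bool) (f : FF n N m) (z : ZZ m) : Euc m → Euc m :=
  cond i (fun q => -C.pq f (C.ge f z).2 q) (C.pq f (C.ge f z).1)



/-- the static fields -/
structure GS (m : ℕ) (b0 th : ℝ) (c : ℕ → ℝ) : Prop where
  b01 : 1 ≤ b0
  thp : 0 < th
  th1 : th ≤ 1
  c1 : ∀ k, 1 ≤ c k
  jet : ∀ i (f : FF n N m) z y, C.Frm f → ‖z‖ ≤ 2 * C.rr m → ‖y‖ ≤ 1 → G0.UJ c (C.gg i f z) y
  slope : ∀ i (f : FF n N m) z y, C.Frm f → ‖z‖ ≤ 2 * C.rr m → ‖y‖ ≤ 1 →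
    ‖fderiv ℝ (C.gg i f z) y‖ ≤ b0
  trv : ∀ (f : FF n N m) z z' y v, C.Frm f → ‖z‖ ≤ 2 * C.rr m → ‖z'‖ ≤ 2 * C.rr m →
    ‖y‖ ≤ 2 * C.rr m →
    ‖v‖ ≤ b0 * ‖fderiv ℝ (C.gg true f z') y v - fderiv ℝ (C.gg false f z) y v‖
  sep : ∀ (f : FF n N m) z z' y y', C.Frm f → ‖z‖ ≤ 2 * C.rr m → ‖z'‖ ≤ 2 * C.rr m →
    ‖y‖ ≤ 2 * C.rr m → ‖y'‖ ≤ 2 * C.rr m → ‖y - y'‖ ≤
      b0 * ‖(C.gg true f z' y - C.gg false f z y) - (C.gg true f z' y' - C.gg false f z y')‖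
  int : ∀ (f : FF n N m) z z' y, C.Frm f → ‖z‖ ≤ 2 * C.rr m → ‖z'‖ ≤ 2 * C.rr m → ‖y‖ ≤ C.rr m →
    4 * b0 * ‖C.gg true f z' y - C.gg false f z y‖ ≤ C.rr m →
    ∃ y', C.gg true f z' y' = C.gg false f z y' ∧
      ‖y' - y‖ ≤ b0 * ‖C.gg true f z' y - C.gg false f z y‖
  hol : ∀ i (f : FF n N m) z z', C.Frm f → ‖z‖ ≤ 2 * C.rr m → ‖z'‖ ≤ 2 * C.rr m →
    ‖fderiv ℝ (C.gg i f z) z.1 - fderiv ℝ (C.gg i f z') z'.1‖ ≤ b0 * ‖z - z'‖ ^ th

lemma GS.mono {b b' th : ℝ} {c c' : ℕ → ℝ} (h : C.GS m b th c) (hb : b ≤ b') (hc : ∀ k, c k ≤ c' k) :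
    C.GS m b' th c' where
  b01 := h.b01.trans hb
  thp := h.thp
  th1 := h.th1
  c1 k := (h.c1 k).trans (hc k)
  jet i f z y h1 h2 h3 := ⟨(h.jet i f z y h1 h2 h3).1, fun k =>
    ((h.jet i f z y h1 h2 h3).2 k).trans (hc k)⟩
  slope i f z y h1 h2 h3 := (h.slope i f z y h1 h2 h3).trans hb
  trv f z z' y v h1 h2 h3 h4 := (h.trv f z z' y v h1 h2 h3 h4).trans (by gcongr)
  sep f z z' y y' h1 h2 h3 h4 h5 := (h.sep f z z' y y' h1 h2 h3 h4 h5).trans (by gcongr)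
  int f z z' y h1 h2 h3 h4 h5 := (h.int f z z' y h1 h2 h3 h4 (le_trans (by gcongr) h5)).imp
    fun _ k => ⟨k.1, k.2.trans (by gcongr)⟩
  hol i f z z' h1 h2 h3 := (h.hol i f z z' h1 h2 h3).trans (by gcongr)


lemma fderiv_gg (f : FF n N m) (z : ZZ m) (q : Euc m) :
    fderiv ℝ (C.gg false f z) q = C.HH f (C.ge f z).1 q ∧
      fderiv ℝ (C.gg true f z) q = -C.HH f (C.ge f z).2 q := ⟨rfl, fderiv_fun_neg⟩

variable (H : Hyp n N a S) (hm : m + 1 = n)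
include H hm

lemma gg_self (i : Bool) (hf : C.Frm f) (hz : ‖z‖ ≤ 2 * C.rr m) : C.gg i f z z.1 = z.2 := by
  cases i
  exacts [(C.pq_ge H hm hf hz).1, neg_eq_iff_eq_neg.2 (C.pq_ge H hm hf hz).2]

/-- the end point of the `i`-leaf is constant along it -/
lemma ge_gg (hf : C.Frm f) (hz : ‖z‖ ≤ 2 * C.rr m) (hq : ‖q‖ ≤ 2 * C.rr m) :
    (C.ge f (q, C.gg false f z q)).1 = (C.ge f z).1 ∧ (C.ge f (q, C.gg true f z q)).2 = (C.ge f z).2 :=
  ⟨(C.ge_gs H hm hf ((C.rad H hm).front f hf z hz) hq).2.2,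
    (C.ge_gu H hm hf (C.back H hm hf hz) hq).2.2⟩

lemma gg_lab (i : Bool) (hf : C.Frm f) (hz : ‖z‖ ≤ 2 * C.rr m) (hq : ‖q‖ ≤ 2 * C.rr m) :
    C.gg i f (q, C.gg i f z q) = C.gg i f z := by
  cases i
  · exact congrArg (C.pq f) (C.ge_gg H hm hf hz hq).1
  · exact congrArg (fun η q => -C.pq f η q) (C.ge_gg H hm hf hz hq).2

lemma gg_static : ∃ b0 th c, C.GS m b0 th c := by
  obtain ⟨θ, K, θ0, θ1, K0, hK⟩ := C.hol_S H hm
  obtain ⟨L, L0, hL⟩ := C.pq_lip H hm (m := m)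
  choose c hc using C.jb_pq H (m := m) 1
  have ha := H.a_pos
  have r0 := C.rr_pos H hm
  have F1 := (C.rad H hm).front
  have F2 := fun (f : FF n N m) (hf : C.Frm f) z (hz : ‖z‖ ≤ 2 * C.rr m) => C.back H hm hf hz
  have ne : ∀ ξ : Euc n, ‖ξ‖ = 1 → ξ ≠ 0 := fun ξ h => by rintro rfl; simp at h
  have b16 : 16 / a ≤ max (max 1 (16 / a)) (max K L) := le_max_of_le_left (le_max_right _ _)
  have key : ∀ v w : Euc m, ⟪w, v⟫ ≤ -(a / 16 * ‖v‖ ^ 2) →
      ‖v‖ ≤ max (max 1 (16 / a)) (max K L) * ‖-w‖ := fun v w h => by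
    refine le_trans ?_ (mul_le_mul_of_nonneg_right b16 (norm_nonneg _))
    rw [div_mul_eq_mul_div, le_div_iff₀ ha, norm_neg]
    rcases (norm_nonneg v).eq_or_lt with h0 | h0
    · rw [← h0, zero_mul]; positivity
    · exact le_of_mul_le_mul_right (by nlinarith [(abs_le.1 (abs_real_inner_le_norm w v)).1]) h0
  refine ⟨max (max 1 (16 / a)) (max K L), θ, fun k => max 1 (c k), le_max_of_le_left (le_max_left _ _),
    θ0, θ1, fun k => le_max_left _ _, fun i f z y h1 h2 h3 => ?_, fun i f z y h1 h2 h3 => ?_,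
    fun f z z' y v h1 h2 h3 h4 => ?_, fun f z z' y y' h1 h2 h3 h4 h5 => ?_,
    fun f z z' y h1 h2 h3 h4 h5 => ?_, fun i f z z' h1 h2 h3 => ?_⟩
  · cases i
    · exact ⟨(C.contDiff_pq H (ne _ (F1 f h1 z h2).1) f).contDiffAt, fun k =>
        le_max_of_le_right (hc k ((f, _), y) ⟨h1, (F1 f h1 z h2).1, h3⟩)⟩
    · refine ⟨(C.contDiff_pq H (ne _ (F2 f h1 z h2).1) f).neg.contDiffAt, fun k => ?_⟩
      rw [show C.gg true f z = -C.pq f (C.ge f z).2 from rfl, iteratedFDeriv_neg_apply, norm_neg]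
      exact le_max_of_le_right (hc k ((f, _), y) ⟨h1, (F2 f h1 z h2).1, h3⟩)
  · refine le_max_of_le_right (le_max_of_le_right ?_)
    cases i
    · exact (hL f _ y y h1 (F1 f h1 z h2).1 h3 h3).1
    · rw [(C.fderiv_gg f z y).2, norm_neg]; exact (hL f _ y y h1 (F2 f h1 z h2).1 h3 h3).1
  · have k1 := (C.rad H hm).neg f h1 _ (F1 f h1 z h2) y h4 v
    have k2 := (C.rad H hm).neg _ h1.fp _ (F2 f h1 z' h3) y h4 v
    convert key v (C.HH f (C.ge f z).1 y v + C.HH f (C.ge f z').2 y v)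
      (by rw [inner_add_left]; rw [C.HH_fp] at k2; linarith) using 3
    rw [(C.fderiv_gg f z y).1, (C.fderiv_gg f z' y).2, neg_apply]; abel
  · convert key _ _ (C.pq_mono2 H hm h1 (F1 f h1 z h2) (F2 f h1 z' h3) h4 h5) using 3
    simp only [gg, cond]; abel
  · have e : ∀ q, C.gg true f z' q - C.gg false f z q =
        -(C.pq f (C.ge f z).1 q + C.pq f (C.ge f z').2 q) := fun q => by simp only [gg, cond]; abel
    rw [e, norm_neg] at h5 ⊢
    have k0 := mul_le_mul_of_nonneg_right b16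
      (norm_nonneg (C.pq f (C.ge f z).1 y + C.pq f (C.ge f z').2 y))
    obtain ⟨q, k1, k2⟩ := exists_zero_mono
      (F := fun q => C.pq f (C.ge f z).1 (y + q) + C.pq f (C.ge f z').2 (y + q))
      (φ := fun q => C.bq f (C.ge f z).1 (y + q) + C.bq f (C.ge f z').2 (y + q)) (r := C.rr m)
      (c := a / 16) r0 (by positivity) (fun q => by
        rw [map_add]
        exact (((C.hasFDerivAt_bq H (ne _ (F1 f h1 z h2).1) f _).add (C.hasFDerivAt_bq H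
          (ne _ (F2 f h1 z' h3).1) f _)).comp q ((hasFDerivAt_id q).const_add y)))
      (fun q hq => by
        simpa using C.pq_mono2 H hm h1 (F1 f h1 z h2) (F2 f h1 z' h3) (q := y + q) (q' := y)
          ((norm_add_le _ _).trans (by linarith)) (by linarith))
      (by rw [add_zero]; rw [div_mul_eq_mul_div, div_le_iff₀ ha] at k0; nlinarith)
    refine ⟨y + q, sub_eq_zero.1 (by rw [e, k2, neg_zero]), le_trans ?_ k0⟩
    rw [add_sub_cancel_left, div_mul_eq_mul_div, le_div_iff₀ ha]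
    rw [add_zero] at k1
    linarith
  · refine le_trans ?_ (mul_le_mul_of_nonneg_right (le_max_of_le_right (le_max_left K L))
      (by positivity))
    cases i
    · exact (hK f z z' h1 h2 h3).1
    · rw [(C.fderiv_gg f z _).2, (C.fderiv_gg f z' _).2]; exact (hK f z z' h1 h2 h3).2

end Crest.Agent.N221.Cov
end
end

-- ▼ part N221/G0/IDy
section

/-!
Row 221, block G0, instance (helper85): `dyn3`, the geometry of `fwd`, `bwd`, `hit`.
-/

set_option autoImplicit false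
set_option linter.unusedSectionVars false
set_option linter.unusedVariables false

open MeasureTheory Set Filter Topology Metric
open scoped ContDiff RealInnerProductSpace ENNReal
open Crest.GeometryTopology.Submanifold
open Crest.Agent.R241.DDefs Crest.Agent.R241.D2
open Crest.Agent.R208.J Crest.Agent.R208.L

noncomputable section

namespace Crest.Agent.N221.Cov

variable {n N m : ℕ} {a : ℝ} {S : Set (Euc N)} {G : Geo n N (-(a ^ 2)) S} (C : Cov G)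
variable {f f' f0 f1 : FF n N m} {z z0 : ZZ m} {ξ : Euc n} {R e D τ τ' κ : ℝ}

lemma norm_gs_zero (f : FF n N m) (ξ : Euc n) : ‖C.gs f ξ 0‖ = ‖C.pq f ξ 0‖ := by
  simp [gs, Prod.norm_def]

lemma Sg.mono {C : Cov G} (h : C.Sg R e D τ' f ξ f') (hτ : τ ≤ τ') : C.Sg R e D τ f ξ f' :=
  ⟨h.fr, h.fr', h.fw, h.dd, h.l0, fun q hq =>
    ⟨(h.pl q hq).1, (h.pl q hq).2.1, (h.pl q hq).2.2.1, hτ.trans (h.pl q hq).2.2.2⟩⟩

variable (H : Hyp n N a S) (hm : m + 1 = n)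
include H hm

/-- change of chart to a frame centred at a nearby chart point -/
lemma chg : ∃ K δ : ℝ, 1 ≤ K ∧ 0 < δ ∧ ∀ (f f0 : FF n N m) (z0 z : ZZ m) (ε : ℝ), C.Frm f →
    C.Frm f0 → f0.1 = C.hy f z0.1 → f0.2.1 = C.uv f z0 → ε ≤ δ → ‖z0‖ ≤ ε → ‖z‖ ≤ ε →
    (z ∈ C.dm f f0 ∧ ‖C.Tf f f0 z‖ ≤ K * ε ∧ |C.tm f f0 z| ≤ K * ε) ∧
    (z ∈ C.dm f0 f ∧ ‖C.Tf f0 f z‖ ≤ K * ε ∧ |C.tm f0 f z| ≤ K * ε) := by
  obtain ⟨K, δ, k0, d0, h⟩ := C.step H hm (m := m) 0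
  obtain ⟨U, u0, hU⟩ := C.uv_near H hm (m := m)
  have r0 := C.rr_pos H hm
  refine ⟨1 + K * (1 + U), min (δ / (1 + U)) (C.rr m), le_add_of_nonneg_right (by positivity),
    by positivity, fun f f0 z0 z ε hf h0 e1 e2 hε hz0 hz => ?_⟩
  have ε0 := (norm_nonneg z).trans hz
  have b1 : (1 + U) * ε ≤ δ := (le_div_iff₀' (by positivity)).1 (hε.trans (min_le_left _ _))
  have b2 := hε.trans (min_le_right _ _)
  have x1 : 0 ≤ U * ε := by positivity
  have i1 : ‖C.uv f z0 - f.2.1‖ ≤ (1 + U) * ε :=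
    (hU f z0 hf (by linarith)).trans (by nlinarith [mul_le_mul_of_nonneg_left hz0 u0.le])
  have i2 : C.dd f.1 f0.1 ≤ (1 + U) * ε := by
    rw [e1, C.dd_hy hf]
    linarith [norm_fst_le z0]
  have i3 : K * ((1 + U) * ε) ≤ (1 + K * (1 + U)) * ε := by nlinarith
  obtain ⟨a1, a2, a3⟩ := h f f0 z 0 _ hf h0 (by simp) b1 (by linarith)
    (by rwa [C.gd_zero, C.dd_comm]) (by rwa [C.vel_zero, e2, norm_sub_rev])
  obtain ⟨c1, c2, c3⟩ := h f0 f z 0 _ h0 hf (by simp) b1 (by linarith)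
    (by rwa [C.gd_zero]) (by rwa [C.vel_zero, e2])
  rw [sub_zero] at a3 c3
  exact ⟨⟨a1, a2.trans i3, a3.trans i3⟩, c1, c2.trans i3, c3.trans i3⟩

/-- the frames centred at a point and at its image are on one orbit -/
lemma ov_cen (hf : C.Frm f) (hf' : C.Frm f') (hz : z ∈ C.dm f f') (a1 : f0.1 = C.hy f z.1)
    (a2 : f0.2.1 = C.uv f z) (b1 : f1.1 = C.hy f' (C.Tf f f' z).1)
    (b2 : f1.2.1 = C.uv f' (C.Tf f f' z)) : C.Ov f0 f1 (C.tm f f' z) := by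
  obtain ⟨h1, h2⟩ := C.hy_Tf H hm hf hf' hz
  exact ⟨by rw [b1, h1, a1, a2], by rw [b2, h2, a1, a2]⟩

/-- PLAQUES: one point of the stable plaque flies from `f` to `f'`, so does the plaque -/
lemma plq : ∃ K δ : ℝ, 1 ≤ K ∧ 0 < δ ∧ ∀ (f f' : FF n N m) (z0 : ZZ m) (ε : ℝ), C.Frm f →
    C.Frm f' → z0 ∈ C.dm f f' → ε ≤ δ → ‖z0‖ ≤ ε → ‖C.Tf f f' z0‖ ≤ ε → 0 ≤ C.tm f f' z0 →
    ∀ q, ‖q‖ ≤ ε → ‖C.gs f (C.ge f z0).1 q‖ ≤ K * ε ∧ C.gs f (C.ge f z0).1 q ∈ C.dm f f' ∧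
      ‖C.Tf f f' (C.gs f (C.ge f z0).1 q)‖ ≤ K * ε ∧
      |C.tm f f' (C.gs f (C.ge f z0).1 q) - C.tm f f' z0| ≤ K * ε := by
  obtain ⟨K1, k1, h1⟩ := C.gs_le H hm (m := m)
  obtain ⟨K2, k2, h2⟩ := C.pq_le H hm (m := m)
  obtain ⟨K3, δ3, k3, d3, h3⟩ := C.chg H hm (m := m)
  obtain ⟨K4, δ4, k4, d4, h4⟩ := C.ctrP_s H hm (m := m)
  have r0 := C.rr_pos H hm
  have r1 := (C.rad H hm).le
  set M := K3 * ((1 + K4) * (K3 * (K1 + K2))) with hM
  have M0 : 0 < M := by positivity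
  refine ⟨1 + 3 * M, min (min δ3 δ4 / M) (C.rr m), le_add_of_nonneg_right (by positivity),
    by positivity, fun f f' z0 ε hf hf' hz hε n0 n1 ht q hq => ?_⟩
  have ε0 := (norm_nonneg q).trans hq
  have b1 : M * ε ≤ min δ3 δ4 := (le_div_iff₀' M0).1 (hε.trans (min_le_left _ _))
  have b2 := hε.trans (min_le_right _ _)
  have b3 := b1.trans (min_le_left _ _)
  have b4 := b1.trans (min_le_right _ _)
  obtain ⟨f0, g0, a1, a2, a3, -⟩ := C.centre H hm hf hz.1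
  obtain ⟨f1, g1, c1, c2, -⟩ := C.centre H hm hf' (C.Tf_spec H hm hf' hz).1
  have ho := C.ov_cen H hm hf hf' hz a1 a2 c1 c2
  have w := (C.rad H hm).front f hf z0 (by linarith)
  set ξ := (C.ge f z0).1
  set e1 := (K1 + K2) * ε with he1
  set e2 := K3 * e1 with he2
  set e3 := (1 + K4) * e2 with he3
  have eM : M * ε = K3 * e3 := by rw [hM, he3, he2, he1]; ring
  have y1 : ε ≤ e1 := by nlinarith
  have y2 : e1 ≤ e2 := le_mul_of_one_le_left (by linarith) k3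
  have y0 : 0 ≤ K4 * e2 := mul_nonneg k4.le (by linarith)
  have y3 : e3 = e2 + K4 * e2 := by ring
  have y4 : e3 ≤ K3 * e3 := le_mul_of_one_le_left (by linarith) k3
  have i1 : ‖C.gs f ξ q‖ ≤ e1 := by
    have := (h1 f ξ q hf w.1 (by linarith)).1
    have := (h2 f z0 hf (by linarith)).1
    nlinarith [mul_le_mul_of_nonneg_left hq (zero_le_one.trans k1),
      mul_le_mul_of_nonneg_left n0 (zero_le_one.trans k2)]
  obtain ⟨⟨m1, m2, m3⟩, -⟩ := h3 f f0 z0 _ e1 hf g0 a1 a2 (by linarith) (by linarith) i1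
  obtain ⟨p1, p2, p3⟩ := h4 f0 f1 _ _ e2 g0 g1 ho ht (by linarith) m2
    (by rw [(C.Tf_spec H hm g0 m1).2, (C.ge_gs H hm hf w (by linarith)).2.2, a3])
  have ex : Real.exp (-(a * C.tm f f' z0)) ≤ 1 :=
    Real.exp_le_one_iff.2 (by nlinarith [H.a_pos])
  obtain ⟨-, s1, s2, s3⟩ := h3 f' f1 _ _ e3 hf' g1 c1 c2 (by linarith) (by linarith)
    (p2.trans (by linarith [mul_le_of_le_one_right y0 ex]))
  obtain ⟨u1, u2, u3⟩ := C.Tf_comp H hm g0 g1 m1 p1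
  rw [← u2] at s1 s2 s3
  obtain ⟨v1, v2, v3⟩ := C.Tf_comp H hm g1 hf' u1 s1
  have eK : (1 + 3 * M) * ε = ε + 3 * (K3 * e3) := by rw [← eM]; ring
  rw [eK, v2, v3, u3]
  refine ⟨by linarith, v1, by linarith, ?_⟩
  rw [abs_le] at *
  constructor <;> linarith [m3.1, m3.2, p3.1, p3.2, s3.1, s3.2]

/-- a step from one point -/
lemma sg_of : ∃ K δ : ℝ, 1 ≤ K ∧ 0 < δ ∧ ∀ (f f' : FF n N m) (z0 : ZZ m) (ε R e D τ : ℝ),
    C.Frm f → C.Frm f' → z0 ∈ C.dm f f' → ε ≤ δ → ‖z0‖ ≤ ε → ‖C.Tf f f' z0‖ ≤ ε → R ≤ ε →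
    K * ε ≤ e → 0 ≤ τ → τ + 1 ≤ C.tm f f' z0 → C.tm f f' z0 + 1 ≤ D →
    ‖C.lf f f' (C.ge f z0).1 0‖ ≤ 2 * R / 3 → C.Sg R e D τ f (C.ge f z0).1 f' := by
  obtain ⟨K, δ, k1, d0, h⟩ := C.plq H hm (m := m)
  have r0 := C.rr_pos H hm
  have r1 := (C.rad H hm).le
  refine ⟨K, min δ (1 / K), k1, by positivity,
    fun f f' z0 ε R e D τ hf hf' hz hε n0 n1 hR he t0 t1 t2 l0 => ?_⟩
  have b1 : K * ε ≤ 1 := (le_div_iff₀' (by positivity)).1 (hε.trans (min_le_right _ _))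
  refine ⟨hf, hf', (C.rad H hm).front f hf z0 (by linarith [hz.1]), ?_, l0, fun q hq => ?_⟩
  · have := (abs_le.1 (C.dd_tm H hm hf hf' hz)).1
    rw [abs_of_nonneg (by linarith)] at this
    linarith [norm_fst_le z0, norm_fst_le (C.Tf f f' z0), hz.1, (C.Tf_spec H hm hf' hz).1]
  · obtain ⟨a1, a2, a3, a4⟩ := h f f' z0 ε hf hf' hz (hε.trans (min_le_left _ _)) n0 n1
      (by linarith) q ((mem_ball_zero_iff.1 hq).le.trans hR)
    exact ⟨a2, a1.trans he, a3.trans he, by linarith [(abs_le.1 a4).1]⟩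

/-- stable leaves approach each other backwards -/
lemma W_con : ∃ K δ : ℝ, 0 < K ∧ 0 < δ ∧ ∀ (f f' : FF n N m) (z : ZZ m) (ξ' : Euc n) (d : ℝ),
    C.Frm f → C.Frm f' → z ∈ C.dm f f' → 0 ≤ C.tm f f' z → ‖ξ'‖ = 1 → d ≤ δ →
    ‖C.W ξ' (C.hy f' (C.Tf f f' z).1) - C.uv f' (C.Tf f f' z)‖ ≤ d →
    ‖C.W ξ' (C.hy f z.1) - C.uv f z‖ ≤ K * Real.exp (-(a * C.tm f f' z)) * d := by
  obtain ⟨K, δ, k0, d0, h⟩ := C.box_s H hm (m := m)
  obtain ⟨U, u0, hU⟩ := C.uv_near H hm (m := m)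
  have r0 := C.rr_pos H hm
  refine ⟨U * K, min (min δ 1) (C.rr m / K), by positivity, by positivity,
    fun f f' z ξ' d hf hf' hz ht hξ hd h1 => ?_⟩
  obtain ⟨f0, g0, a1, a2, -⟩ := C.centre H hm hf hz.1
  obtain ⟨f1, g1, c1, c2, -⟩ := C.centre H hm hf' (C.Tf_spec H hm hf' hz).1
  have ho := C.ov_cen H hm hf hf' hz a1 a2 c1 c2
  rw [← c1, ← c2] at h1
  obtain ⟨w1, w2⟩ := C.fw_of_near H g1 hξ
    (hd.trans ((min_le_left _ _).trans (min_le_right _ _))) h1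
  obtain ⟨p1, p2, -⟩ := h f0 f1 ξ' _ d g0 g1 ho ht w1
    (hd.trans ((min_le_left _ _).trans (min_le_left _ _))) w2
  have b1 : K * d ≤ C.rr m := (le_div_iff₀' k0).1 (hd.trans (min_le_right _ _))
  have ex : Real.exp (-(a * C.tm f f' z)) ≤ 1 := Real.exp_le_one_iff.2 (by nlinarith [H.a_pos])
  have y0 : 0 ≤ K * d := mul_nonneg k0.le ((norm_nonneg _).trans h1)
  have i := hU f0 (C.gs f0 ξ' 0) g0
    (by rw [norm_gs_zero]; linarith [mul_le_of_le_one_right y0 ex])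
  rw [(C.ge_gs H hm g0 p1 (by rw [norm_zero]; positivity)).2.1, C.hy_zero, norm_gs_zero, a1,
    a2] at i
  exact i.trans ((mul_le_mul_of_nonneg_left p2 u0.le).trans (le_of_eq (by ring)))

/-- the same in the charts -/
lemma pq_con : ∃ K δ : ℝ, 0 < K ∧ 0 < δ ∧ ∀ (f f' : FF n N m) (z : ZZ m) (ξ' : Euc n) (d : ℝ),
    C.Frm f → C.Frm f' → z ∈ C.dm f f' → 0 ≤ C.tm f f' z → C.Fw f' ξ' → d ≤ δ →
    ‖C.pq f' ξ' (C.Tf f f' z).1 - (C.Tf f f' z).2‖ ≤ d →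
    ‖C.W ξ' (C.hy f z.1) - C.uv f z‖ ≤ K * Real.exp (-(a * C.tm f f' z)) * d ∧
    ‖C.pq f ξ' z.1 - z.2‖ ≤ K * Real.exp (-(a * C.tm f f' z)) * d := by
  obtain ⟨K, δ, k0, d0, h⟩ := C.W_con H hm (m := m)
  obtain ⟨U, u0, hU⟩ := C.uv_lip H hm (m := m)
  have r0 := C.rr_pos H hm
  refine ⟨2 * (K * U), min (δ / U) (C.rr m), by positivity, by positivity,
    fun f f' z ξ' d hf hf' hz ht hξ hd h1 => ?_⟩
  have n1 := (C.Tf_spec H hm hf' hz).1
  set z' := C.Tf f f' z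
  have e1 : ‖C.gs f' ξ' z'.1 - z'‖ ≤ d := by
    rw [Prod.norm_def]
    exact max_le (by simpa [gs] using (norm_nonneg _).trans h1) h1
  have i := hU f' (C.gs f' ξ' z'.1) z' hf'
    (by linarith [norm_le_norm_add_norm_sub' (C.gs f' ξ' z'.1) z', hd.trans (min_le_right _ _)])
    (by linarith)
  rw [(C.ge_gs H hm hf' hξ (by linarith [norm_fst_le z'])).2.1] at i
  have j := h f f' z ξ' (U * d) hf hf' hz ht hξ.1
    ((le_div_iff₀' u0).1 (hd.trans (min_le_left _ _)))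
    (i.trans (mul_le_mul_of_nonneg_left e1 u0.le))
  have n0 := norm_nonneg (C.W ξ' (C.hy f z.1) - C.uv f z)
  have e2 : 2 * (K * U) * Real.exp (-(a * C.tm f f' z)) * d =
      2 * (K * Real.exp (-(a * C.tm f f' z)) * (U * d)) := by ring
  rw [e2]
  refine ⟨by linarith, ?_⟩
  have e3 : C.pq f ξ' z.1 - z.2 = (C.Jh f z.1).adjoint (C.W ξ' (C.hy f z.1) - C.uv f z) := by
    rw [map_sub, C.adj_uv H hf]
    rfl
  have l := (C.Jh f z.1).adjoint.le_opNorm (C.W ξ' (C.hy f z.1) - C.uv f z)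
  rw [LinearIsometryEquiv.norm_map] at l
  rw [e3]
  have J := (C.rad H hm).J_le f hf z.1 (by linarith [norm_fst_le z, hz.1])
  nlinarith [mul_le_mul_of_nonneg_right J n0]

/-- the foot point of a leaf that is near the centre of the later chart -/
lemma fw1 : ∃ K δ : ℝ, 1 ≤ K ∧ 0 < δ ∧ ∀ (f f0 f' : FF n N m) (z0 : ZZ m) (ξ' : Euc n) (T ε : ℝ),
    C.Frm f → C.Frm f0 → C.Frm f' → f0.1 = C.hy f z0.1 → f0.2.1 = C.uv f z0 → C.Ov f0 f' T →
    0 ≤ T → ε ≤ δ → ‖z0‖ ≤ ε → C.Fw f ξ' → C.Fw f' ξ' → ‖C.pq f ξ' 0‖ ≤ ε → ‖C.pq f' ξ' 0‖ ≤ ε →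
    C.gs f ξ' 0 ∈ C.dm f f' ∧ ‖C.Tf f f' (C.gs f ξ' 0)‖ ≤ K * ε ∧
      |C.tm f f' (C.gs f ξ' 0) - T| ≤ K * ε := by
  obtain ⟨K1, δ1, k1, d1, h1⟩ := C.chg H hm (m := m)
  obtain ⟨K2, δ2, k2, d2, h2⟩ := C.box_s H hm (m := m)
  refine ⟨K1 + K2 * K1, min δ1 (δ2 / K1), k1.trans (le_add_of_nonneg_right (by positivity)),
    by positivity, fun f f0 f' z0 ξ' T ε hf g0 hf' a1 a2 ho hT hε n0 w w' p p' => ?_⟩
  have ε0 := (norm_nonneg _).trans n0
  have b2 : K1 * ε ≤ δ2 := (le_div_iff₀' (by positivity)).1 (hε.trans (min_le_right _ _))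
  obtain ⟨⟨m1, m2, m3⟩, -⟩ := h1 f f0 z0 (C.gs f ξ' 0) ε hf g0 a1 a2 (hε.trans (min_le_left _ _))
    n0 (by rwa [norm_gs_zero])
  have e := (C.Tf_gs H hm hf g0 w m1).1
  obtain ⟨-, -, h3⟩ := h2 f0 f' ξ' T (K1 * ε) g0 hf' ho hT w' b2
    (p'.trans (le_mul_of_one_le_left ε0 k1))
  obtain ⟨s1, s2, s3⟩ := h3 (C.lf f f0 ξ' 0) ((norm_fst_le _).trans m2)
  rw [← e] at s1 s2 s3
  obtain ⟨v1, v2, v3⟩ := C.Tf_comp H hm g0 hf' m1 s1
  have eK : (K1 + K2 * K1) * ε = K1 * ε + K2 * (K1 * ε) := by ring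
  have y0 : 0 ≤ K1 * ε := by positivity
  rw [eK, v2, v3]
  refine ⟨v1, by linarith, ?_⟩
  rw [abs_le] at *
  constructor <;> linarith [m3.1, m3.2, s3.1, s3.2]

theorem dyn3 {e b0 : ℝ} (he : 0 < e) (hb : 1 ≤ b0) : ∃ R1 > 0, ∀ R, 0 < R → R ≤ R1 →
    ∃ r2 > 0, ∀ r1, 0 < r1 → r1 ≤ r2 → ∀ κ > 0, ∀ τ : ℝ, ∃ D, C.Dyn3 m b0 R e r1 κ D τ := by
  obtain ⟨Ks, δs, ks, ds, hs⟩ := C.sg_of H hm (m := m)
  obtain ⟨Kp, δp, kp, dp, hp⟩ := C.plq H hm (m := m)
  obtain ⟨Kc, δc, kc, dc, hc⟩ := C.pq_con H hm (m := m)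
  obtain ⟨Kf, δf, kf, df, hw⟩ := C.fw1 H hm (m := m)
  obtain ⟨Kg, kg, hg⟩ := C.gs_le H hm (m := m)
  obtain ⟨U, u0, hU⟩ := C.uv_near H hm (m := m)
  have r0 := C.rr_pos H hm
  have r4 := (C.rad H hm).le
  have ha := H.a_pos
  refine ⟨min (min (min δs (C.rr m / 2)) (e / Ks) / b0) (δc / (2 * Kg + 2)), by positivity,
    fun R R0 hR => ?_⟩
  have x0 : b0 * R ≤ min (min δs (C.rr m / 2)) (e / Ks) :=
    (le_div_iff₀' (by positivity)).1 (hR.trans (min_le_left _ _))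
  have x1 : b0 * R ≤ δs := x0.trans ((min_le_left _ _).trans (min_le_left _ _))
  have x2 : b0 * R ≤ C.rr m / 2 := x0.trans ((min_le_left _ _).trans (min_le_right _ _))
  have x3 : Ks * (b0 * R) ≤ e := (le_div_iff₀' (by positivity)).1 (x0.trans (min_le_right _ _))
  have x4 : (2 * Kg + 2) * R ≤ δc := (le_div_iff₀' (by positivity)).1 (hR.trans (min_le_right _ _))
  have x5 : R ≤ b0 * R := le_mul_of_one_le_left R0.le hb
  refine ⟨min (min (R / 6 / Kf) (1 / (U + 1))) (min δf (min δp δc)), by positivity,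
    fun r1 r10 hr κ κ0 τ => ?_⟩
  have y1 : Kf * r1 ≤ R / 6 :=
    (le_div_iff₀' (by positivity)).1 (hr.trans ((min_le_left _ _).trans (min_le_left _ _)))
  have y2 : (U + 1) * r1 ≤ 1 :=
    (le_div_iff₀' (by positivity)).1 (hr.trans ((min_le_left _ _).trans (min_le_right _ _)))
  have y3 : r1 ≤ δf := hr.trans ((min_le_right _ _).trans (min_le_left _ _))
  have y4 : r1 ≤ δp := hr.trans ((min_le_right _ _).trans ((min_le_right _ _).trans (min_le_left _ _)))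
  have y5 : r1 ≤ δc := hr.trans ((min_le_right _ _).trans ((min_le_right _ _).trans (min_le_right _ _)))
  have y6 : r1 ≤ Kf * r1 := le_mul_of_one_le_left r10.le kf
  -- the flight time
  obtain ⟨t, t0, t1, t2, t3, t4⟩ : ∃ t : ℝ, 0 ≤ t ∧ τ ≤ t ∧ 8 * Real.exp (-(a * t)) ≤ 1 / 6 ∧
      Kc * Real.exp (-(a * t)) ≤ κ ∧ Kc * Real.exp (-(a * t)) ≤ 1 / 2 := by
    have l : ∀ c : ℝ, Tendsto (fun t : ℝ => c * Real.exp (-(a * t))) atTop (𝓝 0) := fun c => by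
      simpa using (Real.tendsto_exp_neg_atTop_nhds_zero.comp
        (tendsto_id.const_mul_atTop ha)).const_mul c
    exact ((eventually_ge_atTop 0).and ((eventually_ge_atTop τ).and
      (((l 8).eventually_le_const (by norm_num)).and
      (((l Kc).eventually_le_const κ0).and
      ((l Kc).eventually_le_const (by norm_num)))))).exists
  have mon : ∀ s, t ≤ s → Kc * Real.exp (-(a * s)) ≤ Kc * Real.exp (-(a * t)) := fun s h => by
    gcongr
  obtain ⟨Q, hQ⟩ := C.ret H hm (m := m) (ε := r1 / Kp) (by positivity)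
  refine ⟨t + 4 + 2 * |Q|, fun f ξ hf w p => ?_, fun f z0 hf n1 n2 => ?_, fun f f' hf hf' => ?_⟩
  · -- forward
    have n0 : ‖C.gs f ξ 0‖ ≤ r1 / 2 := by rwa [norm_gs_zero]
    obtain ⟨f0, g0, a1, a2, a3, a4, a5, a6⟩ := C.centre H hm hf (z := C.gs f ξ 0) (by linarith)
    have g' := g0.fw C (t + 2)
    have ho := C.ov_fw f0 (t + 2)
    set f' := C.fw f0 (t + 2)
    obtain ⟨c1, c2, c3⟩ := C.Tf_zero H hm g0 g' ho
    obtain ⟨v1, v2, v3⟩ := C.Tf_comp H hm g0 g' a4 (by rwa [a5])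
    rw [a5, c2] at v2
    rw [a5, c3, a6, zero_add] at v3
    have eξ : (C.ge f' 0).1 = ξ := by
      rw [Ov.ge_eq C H hm g0 g' ho, a3, (C.ge_gs H hm hf w (by rw [norm_zero]; positivity)).2.2]
    have key : ∀ ξ', C.Fw f' ξ' → ‖C.pq f' ξ' 0‖ ≤ r1 → ‖C.pq f ξ' 0‖ ≤ r1 ∧
        C.Sg R e (t + 4 + 2 * |Q|) t f ξ' f' ∧ ‖C.lf f f' ξ' 0‖ ≤ R / 6 := fun ξ' w' p' => by
      obtain ⟨i1, i2⟩ := hc f f' _ ξ' r1 hf g' v1 (by linarith) w' y5 (by rw [v2]; simpa using p')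
      have i3 : Kc * Real.exp (-(a * C.tm f f' (C.gs f ξ 0))) * r1 ≤ 1 / 2 * r1 :=
        mul_le_mul_of_nonneg_right ((mon _ (by linarith)).trans t4) r10.le
      have i4 := hU f (C.gs f ξ 0) hf (by linarith)
      have i5 := norm_sub_le_norm_sub_add_norm_sub (C.W ξ' f.1) (C.uv f (C.gs f ξ 0)) f.2.1
      have j1 : ‖C.W ξ' f.1 - C.uv f (C.gs f ξ 0)‖ ≤ 1 / 2 * r1 := by
        have := i1.trans i3
        rwa [show (C.gs f ξ 0).1 = 0 from rfl, C.hy_zero] at this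
      have j2 : ‖C.pq f ξ' 0 - C.pq f ξ 0‖ ≤ 1 / 2 * r1 := i2.trans i3
      have w2 := (C.fw_of_near H hf w'.1 le_rfl
        (by nlinarith [mul_le_mul_of_nonneg_left n0 u0.le])).1
      have p2 : ‖C.pq f ξ' 0‖ ≤ r1 := by
        linarith [norm_le_norm_add_norm_sub' (C.pq f ξ' 0) (C.pq f ξ 0)]
      obtain ⟨s1, s2, s3⟩ := hw f f0 f' _ ξ' (t + 2) r1 hf g0 g' a1 a2 ho (by linarith) y3
        (by linarith) w2 w' p2 p'
      have l0 : ‖C.lf f f' ξ' 0‖ ≤ R / 6 := ((norm_fst_le _).trans s2).trans y1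
      have e2 := (C.ge_gs H hm hf w2 (q := 0) (by rw [norm_zero]; positivity)).2.2
      refine ⟨p2, ?_, l0⟩
      have := hs f f' (C.gs f ξ' 0) (b0 * R) R e (t + 4 + 2 * |Q|) t hf g' s1 x1
        (by rw [norm_gs_zero]; linarith) (by linarith) x5 x3 t0
        (by linarith [(abs_le.1 s3).1]) (by linarith [(abs_le.1 s3).2, abs_nonneg Q])
        (by rw [e2]; linarith)
      rwa [e2] at this
    refine ⟨f', g', eξ, fun ξ' w' p' => ?_⟩
    obtain ⟨k1, k2, k3⟩ := key ξ' w' p'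
    refine ⟨k1, k2.mono t1, k3, fun ε hε y hy => ?_⟩
    obtain ⟨w0, p0, -⟩ := C.cen_s H hm g'
    rw [eξ] at w0 p0
    obtain ⟨-, sg, -⟩ := key ξ w0 (by rw [p0, norm_zero]; exact r10.le)
    obtain ⟨m1, -, -, m2⟩ := sg.pl y hy
    have m3 := sg.mp H hm t0 t2 le_rfl y hy
    have m4 := sg.gr H hm y hy
    set y' := C.lf f f' ξ y
    have o1 := (hg f' ξ' y' g' w'.1 (by linarith)).1
    have o2 := (hg f' ξ y' g' w0.1 (by linarith)).1
    rw [p0, norm_zero] at o2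
    have o3 : ‖C.pq f' ξ' y' - C.pq f' ξ y'‖ ≤ δc := by
      have := norm_sub_le (C.pq f' ξ' y') (C.pq f' ξ y')
      have e1 : ‖C.pq f' ξ' y'‖ ≤ _ := norm_snd_le (C.gs f' ξ' y')
      have e2 : ‖C.pq f' ξ y'‖ ≤ _ := norm_snd_le (C.gs f' ξ y')
      nlinarith [mul_le_mul_of_nonneg_left m3.le (zero_le_one.trans kg)]
    have o4 := (hc f f' _ ξ' _ hf g' m1 (t0.trans m2) w' o3 (by rw [m4]; exact le_rfl)).2
    exact o4.trans (mul_le_mul ((mon _ m2).trans t3) (hε y' (mem_ball_zero_iff.2 m3))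
      (norm_nonneg _) κ0.le)
  · -- backward
    have n0 : ‖z0‖ ≤ b0 * R := max_le (by linarith) n2
    obtain ⟨f1, g1, -, -, a3, a4, a5, a6⟩ := C.centre H hm hf (z := z0) (by linarith)
    have g' := g1.fw C (-(t + 2))
    have ho := (C.ov_fw f1 (-(t + 2))).symm C g1
    rw [neg_neg] at ho
    set f' := C.fw f1 (-(t + 2))
    obtain ⟨c1, c2, c3⟩ := C.Tf_zero H hm g' g1 ho
    obtain ⟨s1, s2, s3⟩ := C.Tf_symm H hm hf g1 a4
    rw [a5] at s1 s2 s3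
    obtain ⟨v1, v2, v3⟩ := C.Tf_comp H hm g1 hf c1 (by rwa [c2])
    rw [c2, s2] at v2
    rw [c2, c3, s3, a6, neg_zero, add_zero] at v3
    refine ⟨f', (hs f' f 0 (b0 * R) R e _ t g' hf v1 x1 (by rw [norm_zero]; positivity)
      (by rwa [v2]) x5 x3 t0 (by linarith) (by linarith [abs_nonneg Q]) ?_).mono t1, ?_, v2⟩
    · rwa [lf, (C.cen_s H hm g').2.2, v2]
    · rw [← v2, (C.Tf_spec H hm hf v1).2]
  · -- hit
    have o1 : C.Ov f f 0 := ⟨(C.gd_zero _ _).symm, (C.vel_zero _ _).symm⟩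
    have o2 := (C.ov_fw f' (-(t + 2 + |Q|))).symm C hf'
    rw [neg_neg] at o2
    have q0 := abs_nonneg Q
    obtain ⟨g, z₀, z, hg, -, n1, n2, e1, -, p1, -, -, -, -, -, -, m1, m2, m3⟩ :=
      hQ f f _ f' 0 _ hf hf (hf'.fw C _) hf' o1 o2 le_rfl (by linarith)
    have i0 : r1 / Kp ≤ r1 := div_le_self r10.le kp
    have i1 : ‖z₀‖ ≤ r1 / Kp := by simpa using n1
    have i2 : ‖z‖ ≤ r1 / Kp := n2.trans (mul_le_of_le_one_right (by positivity)
      (Real.exp_le_one_iff.2 (neg_nonpos.2 (by positivity))))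
    have e2 : (C.ge (fg g f) z₀).1 = (C.ge f' 0).1 := by
      rw [← (C.Tf_spec H hm hf' m1).2, m2, e1]
    obtain ⟨u1, u2⟩ := abs_le.1 (m3.trans (le_abs_self Q))
    obtain ⟨-, -, l1, -⟩ := hp _ f' z₀ (r1 / Kp) (hf.fg C hg) hf' m1 (by linarith) i1 (by rwa [m2])
      (by linarith) 0 (by rw [norm_zero]; positivity)
    rw [mul_div_cancel₀ _ (by positivity), e2] at l1
    have l0 : ‖C.lf (fg g f) f' (C.ge f' 0).1 0‖ ≤ R / 6 :=
      ((norm_fst_le _).trans l1).trans (y6.trans y1)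
    refine ⟨g, hg, ?_, p1.trans i0, l0⟩
    have := hs _ f' z₀ (b0 * R) R e (t + 4 + 2 * |Q|) t (hf.fg C hg) hf' m1 x1 (by linarith)
      (by rw [m2]; linarith) x5 x3 t0 (by linarith) (by linarith) (by rw [e2]; linarith)
    rw [e2] at this
    exact this.mono t1

end Crest.Agent.N221.Cov
end
end

-- ▼ part N221/Dy/End
section

/-!
Row 221, block Dy (helper85): the END of the no-branching argument (note h57-5 (6)).

`Fi y w y' w' = cc ξ' η + b ξ' y' + b η y` (`ξ'` the forward end of `(y', w')`, `η` the backward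
end of `(y, w)`) is invariant under the flow and under deck maps and bounded near the diagonal.
-/

set_option autoImplicit false
set_option linter.unusedSectionVars false
set_option linter.unusedVariables false

open MeasureTheory Set Filter Topology
open scoped ContDiff RealInnerProductSpace ENNReal
open Crest.GeometryTopology.Submanifold
open Crest.Agent.R241.DDefs Crest.Agent.R241.D2
open Crest.Agent.R208.J Crest.Agent.R208.L

noncomputable section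

namespace Crest.Agent.N221.Cov

variable {n N : ℕ} {a : ℝ} {S : Set (Euc N)} {G : Geo n N (-(a ^ 2)) S} (C : Cov G)

variable {x y y' z ξ η ζ η₀ ξ₀ ξ₁ : Euc n} {v w w' : Euc N} {g : Euc n → Euc n}

/-- the invariant -/
def Fi (y : Euc n) (w : Euc N) (y' : Euc n) (w' : Euc N) : ℝ :=
  C.cc (C.ep y' w') (C.ep y (-w)) + C.b (C.ep y' w') y' + C.b (C.ep y (-w)) y

variable (H : Hyp n N a S)
include H

lemma b_ep_gd (hw : C.Un y w) (t : ℝ) : C.b (C.ep y w) (C.gd y w t) = C.b (C.ep y w) y - t := by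
  have := C.b_gd H.a_pos (C.ep_ne_zero H.a_pos hw) y t
  rwa [C.W_ep_self H.a_pos hw] at this

lemma b_ep_gd_neg (hw : C.Un y w) (t : ℝ) :
    C.b (C.ep y (-w)) (C.gd y w t) = C.b (C.ep y (-w)) y + t := by
  have := C.b_ep_gd H (hw.neg C) (-t)
  rwa [gd, neg_smul_neg, sub_neg_eq_add] at this

lemma Fi_flow (hw : C.Un y w) (hw' : C.Un y' w') (t : ℝ) :
    C.Fi (C.gd y w t) (C.vel y w t) (C.gd y' w' t) (C.vel y' w' t) = C.Fi y w y' w' := by
  simp only [Fi, C.ep_gd H.a_pos hw', C.ep_gd_neg H.a_pos hw, C.b_ep_gd H hw',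
    C.b_ep_gd_neg H hw]
  ring



/-- `W ξ` is uniformly Lipschitz -/
lemma W_lip : ∃ K : ℝ, 0 < K ∧ ∀ ξ y y', ξ ≠ 0 → C.dd y y' ≤ 1 →
    ‖C.W ξ y - C.W ξ y'‖ ≤ K * C.dd y y' := by
  have ha := H.a_pos
  obtain ⟨K, K0, h⟩ := C.up_close H
  refine ⟨K * (2 + 2 * Real.exp a), by positivity, fun ξ y y' hξ hd => ?_⟩
  have u := C.un_W ha hξ y
  have u' := C.un_W ha hξ y'
  have d0 := C.dd_nonneg y y'
  have h1 := (le_max_right _ _).trans (h y _ y' _ u u' 1 (Or.inl rfl))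
  have h2 := C.asy_tail ha u y' zero_le_one
  rw [C.asy_W ha hξ, C.bus_W ha hξ] at h2
  have h3 := u.dd_gd C 1 (1 - (C.b ξ y' - C.b ξ y))
  have h4 := C.abs_b_sub_le ha hξ y' y
  have h5 := C.dd_triangle ha.le (C.gd y (C.W ξ y) 1)
    (C.gd y (C.W ξ y) (1 - (C.b ξ y' - C.b ξ y))) (C.gd y' (C.W ξ y') 1)
  rw [sub_sub_cancel_left, abs_neg] at h3
  rw [C.dd_comm y' y] at h4
  rw [h3] at h5
  rw [C.dd_comm] at h2
  have h6 := Tw.sinh_le ha d0 hd
  have h7 : 2 / a * Real.exp (-(a * 1)) * Real.sinh (a * C.dd y y') ≤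
      2 * Real.exp a * C.dd y y' := by
    calc _ ≤ 2 / a * 1 * (a * Real.exp a * C.dd y y') := by
          have : 0 ≤ Real.sinh (a * C.dd y y') := Real.sinh_nonneg_iff.2 (by positivity)
          gcongr
          exact Real.exp_le_one_iff.2 (by linarith)
      _ = _ := by field_simp
  rw [dist_eq_norm] at h1
  exact h1.trans (by rw [mul_assoc]; gcongr; linarith)

/-- near the diagonal -/
lemma Fi_near : ∃ ρ K : ℝ, 0 < ρ ∧ ∀ y w y' w', C.Un y w → C.Un y' w' → C.dd y y' ≤ ρ →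
    ‖w - w'‖ ≤ ρ → C.ep y' w' ≠ C.ep y (-w) ∧ |C.Fi y w y' w'| ≤ K := by
  have ha := H.a_pos
  obtain ⟨K, K0, h⟩ := C.W_lip H
  refine ⟨1 / (K + 1), 1 + Real.log 4 / a, by positivity, fun y w y' w' hw hw' d1 d2 => ?_⟩
  have r1 : 1 / (K + 1) ≤ 1 := by rw [div_le_one (by positivity)]; linarith
  have n1 := C.ep_ne_zero ha hw'
  have h1 := h _ y y' n1 (d1.trans r1)
  rw [C.W_ep_self ha hw'] at h1
  have h2 : ‖C.W (C.ep y' w') y - w‖ ≤ 1 := by
    have := norm_sub_le_norm_sub_add_norm_sub (C.W (C.ep y' w') y) w' w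
    rw [norm_sub_rev w' w] at this
    have e : K * (1 / (K + 1)) + 1 / (K + 1) = 1 := by field_simp
    linarith [mul_le_mul_of_nonneg_left d1 K0.le]
  have h3 : 0 ≤ ⟪C.W (C.ep y' w') y, w⟫ := by
    have := norm_sub_sq_real (C.W (C.ep y' w') y) w
    rw [(C.un_W ha n1 y).norm, hw.norm] at this
    nlinarith [norm_nonneg (C.W (C.ep y' w') y - w)]
  have ne : C.ep y' w' ≠ C.ep y (-w) := fun e => by
    rw [e, C.W_ep_self ha (hw.neg C), inner_neg_left, real_inner_self_eq_norm_sq, hw.norm] at h3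
    linarith
  have hO := GG_sub (n := n) (a := (C.ep y' w', C.ep y (-w)))
    ⟨C.norm_ep ha hw', C.norm_ep ha (hw.neg C), ne⟩
  have h4 := C.neg_cc_le ha hO y
  have h5 := C.cc_upper ha hO y
  rw [C.W_ep_self ha (hw.neg C), inner_neg_right] at h5
  have h6 : C.cc (C.ep y' w') (C.ep y (-w)) + C.b (C.ep y' w') y + C.b (C.ep y (-w)) y ≤
      Real.log 4 / a := by
    rw [le_div_iff₀' ha, Real.le_log_iff_exp_le (by norm_num)]
    nlinarith [Real.exp_pos (a * (C.cc (C.ep y' w') (C.ep y (-w)) + C.b (C.ep y' w') y +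
      C.b (C.ep y (-w)) y))]
  have h7 := abs_le.1 ((C.abs_b_sub_le ha n1 y y').trans (d1.trans r1))
  have h8 : 0 ≤ Real.log 4 / a := div_nonneg (Real.log_nonneg (by norm_num)) ha.le
  refine ⟨ne, abs_le.2 ⟨?_, ?_⟩⟩ <;> rw [Fi] <;> linarith [h7.1, h7.2]

/-- `cc` is bounded off the diagonal -/
lemma cc_bdd {δ : ℝ} (hδ : 0 < δ) : ∃ K : ℝ, ∀ ξ η, ‖ξ‖ = 1 → ‖η‖ = 1 → δ ≤ ‖ξ - η‖ →
    |C.cc ξ η| ≤ K := by
  have ha := H.a_pos
  refine ⟨Real.log (8 / δ ^ 2) / a, fun ξ η h1 h2 h3 => ?_⟩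
  have hO := GG_sub (n := n) (a := (ξ, η))
    ⟨h1, h2, sub_ne_zero.1 (norm_pos_iff.1 (hδ.trans_le h3))⟩
  have h5 := C.cc_upper ha hO 0
  rw [C.W_zero ha hO.1, C.W_zero ha hO.2.1, C.inner_dir0 h1 h2, C.b_zero ha hO.1,
    C.b_zero ha hO.2.1, add_zero, add_zero] at h5
  have h6 := norm_sub_sq_real ξ η
  rw [h1, h2] at h6
  rw [abs_of_nonneg (C.cc_nonneg ha hO), le_div_iff₀' ha, Real.le_log_iff_exp_le (by positivity),
    le_div_iff₀ (by positivity)]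
  have h7 : δ ^ 2 ≤ ‖ξ - η‖ ^ 2 := by gcongr
  nlinarith [Real.exp_pos (a * C.cc ξ η)]

/-- END': closeness at some time bounds the sum of the levels -/
lemma end_lev {δ : ℝ} (hδ : 0 < δ) : ∃ ρ K : ℝ, 0 < ρ ∧ ∀ y w y' w' t, C.Un y w → C.Un y' w' →
    C.dd (C.gd y w t) (C.gd y' w' t) ≤ ρ → ‖C.vel y w t - C.vel y' w' t‖ ≤ ρ →
    δ ≤ ‖C.ep y' w' - C.ep y (-w)‖ → |C.b (C.ep y' w') y' + C.b (C.ep y (-w)) y| ≤ K := by
  obtain ⟨ρ, K, ρ0, h⟩ := C.Fi_near H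
  obtain ⟨K', h'⟩ := C.cc_bdd H hδ
  refine ⟨ρ, K + K', ρ0, fun y w y' w' t hw hw' d1 d2 d3 => ?_⟩
  have h1 := (h _ _ _ _ (hw.vel C t) (hw'.vel C t) d1 d2).2
  rw [C.Fi_flow H hw hw', Fi, abs_le] at h1
  have h2 := abs_le.1 (h' _ _ (C.norm_ep H.a_pos hw') (C.norm_ep H.a_pos (hw.neg C)) d3)
  exact abs_le.2 ⟨by linarith [h1.1, h2.2], by linarith [h1.2, h2.1]⟩

/-- PROP: bounded levels bound the point -/
lemma prop_lev (hw : C.Un y w) {r : ℝ} (h1 : |C.b (C.ep y w) y| ≤ r)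
    (h2 : |C.b (C.ep y (-w)) y| ≤ r) : ‖y‖ ≤ r + Real.log 2 / a := by
  have ha := H.a_pos
  have n1 := C.ep_ne_zero ha hw
  have n2 := C.ep_ne_zero ha (hw.neg C)
  have h := C.cosh_dd_le ha n1 n2 (x := y)
    (by rw [C.W_ep_self ha hw, C.W_ep_self ha (hw.neg C)]) 0
  rw [C.dd_zero, C.b_zero ha n1, C.b_zero ha n2, Real.cosh_eq] at h
  have e1 : Real.exp (a * (0 - C.b (C.ep y w) y)) ≤ Real.exp (a * r) := by
    gcongr; linarith [(abs_le.1 h1).1]
  have e2 : Real.exp (a * (0 - C.b (C.ep y (-w)) y)) ≤ Real.exp (a * r) := by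
    gcongr; linarith [(abs_le.1 h2).1]
  have e3 : Real.exp (a * ‖y‖) ≤ Real.exp (a * r + Real.log 2) := by
    rw [Real.exp_add, Real.exp_log two_pos]
    linarith [Real.exp_pos (-(a * ‖y‖))]
  rw [← sub_le_iff_le_add', le_div_iff₀' ha]
  linarith [Real.exp_le_exp.1 e3]


end Crest.Agent.N221.Cov
end
end

-- ▼ part N221/Ni/Gl1
section

/-! Row 221, block Ni (helper34): the dynamics `NB.Dyn` on the unit vectors of the cover. -/

set_option autoImplicit false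
set_option linter.unusedSectionVars false
set_option linter.unusedVariables false

open Set Filter Topology Metric
open scoped ContDiff RealInnerProductSpace
open Crest.GeometryTopology.Submanifold
open Crest.Agent.R241.DDefs Crest.Agent.R241.D2
open Crest.Agent.R208.J Crest.Agent.R208.L

noncomputable section

namespace Crest.Agent.N221.Cov

variable {n N m : ℕ} {a : ℝ} {S : Set (Euc N)} {G : Geo n N (-(a ^ 2)) S} (C : Cov G)

/-- unit vectors of the cover -/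
structure UV (C : Cov G) (H : Hyp n N a S) where
  v : Euc n × Euc N
  un : C.Un v.1 v.2

variable {C} {H : Hyp n N a S}

lemma UV.ext' {p q : C.UV H} (h : p.v = q.v) : p = q := by
  cases p; cases q; cases h; rfl

instance : MetricSpace (C.UV H) where
  dist p q := C.du p.v q.v
  dist_self p := by simp [du, C.dd_self]
  dist_comm p q := by simp only [du]; rw [C.dd_comm, norm_sub_rev]
  dist_triangle p q r := max_le
    ((C.dd_triangle H.a_pos.le _ q.v.1 _).trans (add_le_add (le_max_left _ _) (le_max_left _ _)))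
    ((norm_sub_le_norm_sub_add_norm_sub _ q.v.2 _).trans
      (add_le_add (le_max_right _ _) (le_max_right _ _)))
  eq_of_dist_eq_zero {p q} h := UV.ext' (Prod.ext
    (C.eq_of_dd (le_antisymm ((le_max_left _ _).trans h.le) (C.dd_nonneg _ _)))
    (sub_eq_zero.1 (norm_le_zero_iff.1 ((le_max_right _ _).trans h.le))))

lemma UV.dist_def (p q : C.UV H) : dist p q = max (C.dd p.v.1 q.v.1) ‖p.v.2 - q.v.2‖ := rfl

lemma UV.dd_le (p q : C.UV H) : C.dd p.v.1 q.v.1 ≤ dist p q := le_max_left _ _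

lemma UV.norm_le (p q : C.UV H) : ‖p.v - q.v‖ ≤ dist p q :=
  max_le_max (C.norm_sub_le_dd H.a_pos.le _ _) le_rfl

lemma UV.sub_le (p q : C.UV H) : ‖p.v.2 - q.v.2‖ ≤ 2 :=
  (norm_sub_le _ _).trans (by rw [p.un.norm, q.un.norm]; norm_num)

lemma UV.cont : Continuous (UV.v : C.UV H → _) :=
  (LipschitzWith.of_dist_le_mul (K := 1) fun p q => by
    simpa [dist_eq_norm] using UV.norm_le p q).continuous

lemma UV.tendsto {α : Type} {l : Filter α} {F : α → C.UV H} {p : C.UV H}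
    (h : Tendsto (fun x => (F x).v) l (𝓝 p.v)) : Tendsto F l (𝓝 p) := by
  rw [tendsto_iff_dist_tendsto_zero]
  have c : Continuous fun x : Euc n × Euc N => max (C.dd x.1 p.v.1) ‖x.2 - p.v.2‖ :=
    (C.cont_dd continuous_fst continuous_const).max (by fun_prop)
  have := (c.tendsto p.v).comp h
  rw [C.dd_self, sub_self, norm_zero, max_self] at this
  exact this

variable (C H) in
/-- the data -/
def dat : NB.Dat (C.UV H) (Euc n) where
  Mv T := {e | ∃ g, C.Deck g ∧ ∀ p, (e p).v = C.mv g T p.v}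
  ξ p := C.ep p.v.1 p.v.2
  η p := C.ep p.v.1 (-p.v.2)
  s p := C.b (C.ep p.v.1 p.v.2) p.v.1
  u p := C.b (C.ep p.v.1 (-p.v.2)) p.v.1

variable {g k : Euc n → Euc n} {p : Euc n × Euc N}

lemma mv_mv' (hg : C.Deck g) (hk : C.Deck k) (hp : C.Un p.1 p.2) (s t : ℝ) :
    C.mv g s (C.mv k t p) = C.mv (g ∘ k) (s + t) p := by
  rw [C.mv_mv hk hp, add_comm]

lemma mv_zero (h : ∀ x, g x = x) : C.mv g 0 p = p := by
  simp [mv, h, C.gd_zero, C.vel_zero]

/-- a move as a map of unit vectors -/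
def mvU (hg : C.Deck g) (t : ℝ) (p : C.UV H) : C.UV H := ⟨C.mv g t p.v, C.un_mv hg p.un t⟩

lemma exists_mv (hg : C.Deck g) (t : ℝ) :
    ∃ e ∈ (C.dat H).Mv t, ∀ p, (e p).v = C.mv g t p.v := by
  obtain ⟨k, hk, h1, h2⟩ := hg.inv C
  refine ⟨⟨mvU hg t, mvU hk (-t), fun p => UV.ext' ?_, fun p => UV.ext' ?_⟩,
    ⟨g, hg, fun _ => rfl⟩, fun _ => rfl⟩
  · exact (mv_mv' hk hg p.un _ _).trans (by rw [neg_add_cancel]; exact mv_zero h1)
  · exact (mv_mv' hg hk p.un _ _).trans (by rw [add_neg_cancel]; exact mv_zero h2)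

lemma sinh_le' {x : ℝ} (hx : 0 ≤ x) : Real.sinh x ≤ x * Real.exp x := by
  have h1 := Real.add_one_le_exp (-(2 * x))
  have h2 : Real.exp (-x) = Real.exp x * Real.exp (-(2 * x)) := by
    rw [← Real.exp_add]; ring_nf
  rw [Real.sinh_eq, h2]
  nlinarith [Real.exp_pos x]

include H in
/-- contraction of the strong stable leaves at any distance -/
lemma con_ss (r : ℝ) : ∃ K > 0, ∀ (x y : Euc n) (v w : Euc N) (t : ℝ), C.Un x v → C.Un y w →
    C.ep x v = C.ep y w → C.b (C.ep x v) x = C.b (C.ep x v) y → C.dd x y ≤ r → 0 ≤ t →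
    max (C.dd (C.gd x v t) (C.gd y w t)) ‖C.vel x v t - C.vel y w t‖ ≤
      K * Real.exp (-(a * t)) * C.dd x y := by
  have ha := H.a_pos
  obtain ⟨K, K0, hK⟩ := C.W_lip H
  refine ⟨(K + 2) * (2 * Real.exp (a * r)), by positivity, fun x y v w t hv hw e1 e2 d ht => ?_⟩
  have n0 := C.ep_ne_zero ha hv
  have w1 : w = C.asy x v y := by rw [← C.W_ep ha hv, e1, C.W_ep_self ha hw]
  have b1 : C.bus x v y = 0 := by
    have := C.bus_gd ha hv 0
    rw [C.gd_zero, neg_zero] at this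
    rw [C.b_ep ha hv, C.b_ep ha hv, this] at e2
    linarith
  have h1 := C.asy_tail ha hv y ht
  rw [b1, sub_zero, ← w1, C.dd_comm] at h1
  have d0 := C.dd_nonneg x y
  have h2 : C.dd (C.gd x v t) (C.gd y w t) ≤
      2 * Real.exp (a * r) * Real.exp (-(a * t)) * C.dd x y := by
    refine h1.trans ?_
    have := (sinh_le' (mul_nonneg ha.le d0)).trans (mul_le_mul_of_nonneg_left
      (Real.exp_le_exp.2 (mul_le_mul_of_nonneg_left d ha.le)) (mul_nonneg ha.le d0))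
    refine (mul_le_mul_of_nonneg_left this (by positivity)).trans_eq ?_
    field_simp
  have v1 : C.vel x v t = C.W (C.ep x v) (C.gd x v t) := by
    have := C.W_gd ha n0 x t
    rw [C.W_ep_self ha hv] at this
    exact this.symm
  have v2 : C.vel y w t = C.W (C.ep x v) (C.gd y w t) := by
    have := C.W_gd ha (C.ep_ne_zero ha hw) y t
    rw [C.W_ep_self ha hw, ← e1] at this
    exact this.symm
  have d1 := C.dd_nonneg (C.gd x v t) (C.gd y w t)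
  have h3 : ‖C.vel x v t - C.vel y w t‖ ≤ (K + 2) * C.dd (C.gd x v t) (C.gd y w t) := by
    rcases le_total (C.dd (C.gd x v t) (C.gd y w t)) 1 with h | h
    · rw [v1, v2]
      exact (hK _ _ _ n0 h).trans (by nlinarith)
    · refine (norm_sub_le _ _).trans ?_
      rw [(hv.vel C t).norm, (hw.vel C t).norm]
      nlinarith
  refine (max_le (by nlinarith) h3).trans ?_
  calc (K + 2) * C.dd (C.gd x v t) (C.gd y w t) ≤ (K + 2) * (2 * Real.exp (a * r) *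
        Real.exp (-(a * t)) * C.dd x y) := mul_le_mul_of_nonneg_left h2 (by positivity)
    _ = _ := by ring

lemma dist_mv {T : ℝ} {e : Equiv.Perm (C.UV H)} (he : e ∈ (C.dat H).Mv T) (p q : C.UV H) :
    dist (e p) (e q) = max (C.dd (C.gd p.v.1 p.v.2 T) (C.gd q.v.1 q.v.2 T))
      ‖C.vel p.v.1 p.v.2 T - C.vel q.v.1 q.v.2 T‖ := by
  obtain ⟨g, hg, h⟩ := he
  rw [UV.dist_def, h, h]
  simp only [mv, hg.dd_eq C]

lemma node_aux (o : C.UV H) {V : Set (C.UV H)} (hV : V ∈ 𝓝 o) : ∃ K s₀ : ℝ, 0 < K ∧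
    ∀ (p : C.UV H) T, 0 ≤ T → ∃ q, dist p q ≤ K * Real.exp (-(a * T)) ∧
      ∃ T₁ ∈ Icc T (T + s₀), ∃ f ∈ (C.dat H).Mv T₁, f q ∈ V := by
  have ha := H.a_pos
  obtain ⟨ρ, hρ, hV⟩ := Metric.mem_nhds_iff.1 hV
  obtain ⟨R, hR⟩ := C.spec H hρ
  obtain ⟨K, K0, hK⟩ := con_ss (C := C) (H := H) (4 * |R|)
  refine ⟨K * (4 * |R|) + 1, 2 * |R|, by positivity, fun p T hT => ?_⟩
  obtain ⟨⟨x, v⟩, hv⟩ := p
  dsimp only at hv
  have u1 := hv.vel C (T + |R|)
  obtain ⟨g, hg, d1, d2, -⟩ := hR o.v.1 (-o.v.2) _ _ o.un.neg u1.neg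
  rw [C.ep_gd_neg ha hv] at d2
  replace d1 := d1.trans (le_abs_self R)
  set η := C.ep x (-v) with hη
  have n0 : η ≠ 0 := C.ep_ne_zero ha hv.neg
  have n1 : ‖η‖ = 1 := C.norm_ep ha hv.neg
  set y := g o.v.1 with hy
  have uw := C.un_W ha n0 y
  set s := C.b η y - C.b η x - T with hs
  have b1 : C.b η (C.gd x v (T + |R|)) = C.b η x + (T + |R|) := C.b_ep_gd_neg H hv _
  have b2 := abs_le.1 ((C.abs_b_sub_le ha n0 y (C.gd x v (T + |R|))).trans d1)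
  have s0 : 0 ≤ s := by linarith [b2.1]
  have s1 : s ≤ 2 * |R| := by linarith [b2.2]
  obtain ⟨k, hk, k1, -⟩ := hg.inv C
  obtain ⟨e, he, e1⟩ := exists_mv (H := H) hk (T + s)
  have uq := (uw.vel C (s + T)).neg
  refine ⟨⟨(C.gd y (C.W η y) (s + T), -C.vel y (C.W η y) (s + T)), uq⟩, ?_, T + s,
    ⟨by linarith, by linarith⟩, e, he, hV ?_⟩
  · have u2 := (hv.vel C T).neg
    have u3 := uw.vel C s
    have d3 : C.dd (C.gd x v T) (C.gd y (C.W η y) s) ≤ 4 * |R| := by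
      have t1 := C.dd_triangle ha.le (C.gd x v T) (C.gd x v (T + |R|)) (C.gd y (C.W η y) s)
      have t2 := C.dd_triangle ha.le (C.gd x v (T + |R|)) y (C.gd y (C.W η y) s)
      rw [hv.dd_gd C, add_sub_cancel_left, abs_abs] at t1
      rw [uw.dd_gd_zero C, abs_of_nonneg s0, C.dd_comm _ y] at t2
      linarith
    have := hK _ _ _ _ T u2 u3 (by rw [C.ep_gd_neg ha hv, C.ep_gd ha uw, C.ep_W ha n1])
      (by rw [C.ep_gd_neg ha hv, ← hη, C.b_gd ha n0, hη, C.b_ep_gd_neg H hv]; linarith) d3 hT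
    rw [C.gd_neg, C.vel_neg (hv.vel C T).mem, C.gd_add hv.mem, C.vel_add hv.mem, C.gd_add uw.mem,
      C.vel_add uw.mem, add_neg_cancel, C.gd_zero, C.vel_zero] at this
    rw [UV.dist_def]
    dsimp only
    rw [← norm_neg, neg_sub', neg_neg]
    refine this.trans ?_
    have := Real.exp_pos (-(a * T))
    nlinarith [mul_le_mul_of_nonneg_left d3 (mul_pos K0 this).le]
  · rw [mem_ball, UV.dist_def, e1]
    simp only [mv]
    rw [C.gd_neg, C.vel_neg (uw.vel C _).mem, C.gd_add uw.mem, C.vel_add uw.mem,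
      show s + T + -(T + s) = 0 by ring, C.gd_zero, C.vel_zero, hy, k1, C.dd_self, ← hy]
    refine max_lt hρ ?_
    rwa [← norm_neg, neg_sub', neg_neg]

lemma mv_ep (hg : C.Deck g) (H : Hyp n N a S) (hp : C.Un p.1 p.2) (t : ℝ) :
    C.ep (C.mv g t p).1 (C.mv g t p).2 = C.act g (C.ep p.1 p.2) ∧
    C.b (C.act g (C.ep p.1 p.2)) (C.mv g t p).1 =
      C.b (C.ep p.1 p.2) p.1 - t - C.be g (C.ep p.1 p.2) := by
  have ha := H.a_pos
  simp only [mv]
  rw [← C.act_ep ha hg (hp.vel C t), C.ep_gd ha hp, C.b_act ha hg (C.ep_ne_zero ha hp),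
    C.b_ep_gd H hp]
  exact ⟨rfl, rfl⟩

theorem dyn : NB.Dyn (C.dat H) a where
  a_pos := H.a_pos
  one := ⟨id, C.deck_id, fun p => (mv_zero fun _ => rfl).symm⟩
  mul := by
    rintro s t e ⟨g, hg, h⟩ e' ⟨k, hk, h'⟩
    exact ⟨g ∘ k, hg.comp C hk, fun p => by
      rw [Equiv.Perm.mul_apply, h, h', mv_mv' hg hk p.un]⟩
  inv := by
    rintro t e ⟨g, hg, h⟩
    obtain ⟨k, hk, h1, -⟩ := hg.inv C
    refine ⟨k, hk, fun p => ?_⟩
    obtain ⟨q, rfl⟩ := e.surjective p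
    rw [show e⁻¹ (e q) = q from e.symm_apply_apply q, h, mv_mv' hk hg q.un, neg_add_cancel]
    exact (mv_zero h1).symm
  cont := by
    rintro t e ⟨g, hg, h⟩
    refine continuous_iff_continuousAt.2 fun p => UV.tendsto ?_
    simp only [h, mv]
    have c := (UV.cont (C := C) (H := H)).continuousAt (x := p)
    have c' : ContinuousAt (fun q : C.UV H => (q.v.1, q.v.2, t)) p :=
      c.fst.prodMk (c.snd.prodMk continuousAt_const)
    exact (hg.smooth.continuous.continuousAt.comp (C.continuous_gd.continuousAt.comp c')).prodMk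
      (ContinuousAt.comp (f := fun q : C.UV H => (q.v.1, q.v.2, t))
        (C.contDiffAt_vel p.un.mem t).continuousAt c')
  ss := by
    rintro t e ⟨g, hg, h⟩ p q ⟨h1, h2⟩
    obtain ⟨a1, a2⟩ := mv_ep hg H p.un t
    obtain ⟨a3, a4⟩ := mv_ep hg H q.un t
    simp only [NB.Dat.Ss, dat] at h1 h2 ⊢
    rw [h, h, a1, a3, a2, a4, h2, h1]
    exact ⟨rfl, rfl⟩
  cs r := by
    obtain ⟨K, K0, hK⟩ := con_ss (C := C) (H := H) r
    refine ⟨K, K0, fun T hT e he p q h d => ?_⟩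
    obtain ⟨h1, h2⟩ := h
    simp only [dat] at h1 h2
    rw [dist_mv he]
    exact (hK _ _ _ _ T p.un q.un h1 (by rw [h2, h1]) ((UV.dd_le p q).trans d) hT).trans
      (mul_le_mul_of_nonneg_left (UV.dd_le p q) (by positivity))
  node o V hV := node_aux o hV
  fin δ hδ := by
    obtain ⟨ρ, K, h0, h⟩ := C.end_lev H hδ
    refine ⟨K, ρ, h0, fun T e he p q d1 d2 => ?_⟩
    rw [dist_mv he, max_le_iff] at d1
    exact h _ _ _ _ T p.un q.un d1.1 d1.2 (by rwa [dist_eq_norm] at d2)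
  prop o r := by
    refine ⟨r + Real.log 2 / a + ‖o.v.1‖ + 2 + |r + Real.log 2 / a|, fun p h1 h2 => ?_⟩
    have h3 := C.prop_lev H p.un h1 h2
    have h4 := C.dd_triangle H.a_pos.le p.v.1 0 o.v.1
    rw [C.dd_comm _ 0, C.dd_zero, C.dd_zero] at h4
    have := UV.sub_le p o
    have := neg_abs_le (r + Real.log 2 / a)
    have := abs_nonneg (r + Real.log 2 / a)
    have := norm_nonneg o.v.1
    exact max_le (by linarith) (by linarith)
  cξ := (C.continuousOn_ep H.a_pos).comp_continuous UV.cont fun p => p.un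
  cs' := (C.continuousOn_b H.a_pos).comp_continuous
    (f := fun p : C.UV H => (C.ep p.v.1 p.v.2, p.v.1))
    (((C.continuousOn_ep H.a_pos).comp_continuous UV.cont fun p => p.un).prodMk UV.cont.fst)
    fun p => C.ep_ne_zero H.a_pos p.un

open Classical in
/-- the lifted chart with values in the unit vectors -/
def PsiU (H : Hyp n N a S) {f : FF n N m} (hf : C.Frm f) (y : ZL m) : C.UV H :=
  if h : C.Un (C.Ps f y).1 (C.Ps f y).2 then ⟨C.Ps f y, h⟩ else ⟨bv f, hf.un⟩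

lemma PsiU_v (hm : m + 1 = n) {f : FF n N m} (hf : C.Frm f) {y : ZL m} (hy : ‖y.1‖ < C.rr m) :
    (PsiU H hf y).v = C.Ps f y := by
  have h : C.Un (C.Ps f y).1 (C.Ps f y).2 :=
    C.un_fu (p := (C.hy f y.1.1, C.uv f y.1)) (C.un_uv H hf (C.Dm_lt H hm hf hy)) y.2
  rw [PsiU, dif_pos h]

lemma ss_iff {p q : C.UV H} : (C.dat H).Ss p q ↔ C.Sss p.v q.v := by
  simp only [NB.Dat.Ss, dat, Sss]
  constructor
  · rintro ⟨h1, h2⟩
    exact ⟨h1.symm, by rw [h2, h1]⟩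
  · rintro ⟨h1, h2⟩
    exact ⟨h1.symm, by rw [h1, h2]⟩

end Crest.Agent.N221.Cov
end
end

-- ▼ part N221/Ni/Bx
section

/-! Row 221, Ni (helper50): the fields `cont`, `bil`, `opn`, `loc` of `NB.Box` on the real
objects. -/

set_option autoImplicit false

open Set Filter Topology Metric
open scoped ContDiff RealInnerProductSpace
open Crest.GeometryTopology.Submanifold
open Crest.Agent.R241.DDefs Crest.Agent.R241.D2
open Crest.Agent.R208.J Crest.Agent.R208.L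

noncomputable section

namespace Crest.Agent.N221.Cov

variable {n N m : ℕ} {a : ℝ} {S : Set (Euc N)} {G : Geo n N (-(a ^ 2)) S} (C : Cov G)
variable {f : FF n N m} {y y' : ZL m} {g : Euc n → Euc n} {t : ℝ}
variable (H : Hyp n N a S) (hm : m + 1 = n)
include H hm

/-- `Ps f` is locally Lipschitz -/
lemma lip_Ps (h1 : FlS) (h2 : PsS) (hf : C.Frm f) (s : ℝ) : ∃ K > 0, ∀ y y' : ZL m,
    ‖y.1‖ < C.rr m → ‖y'.1‖ < C.rr m → |y.2 - s| ≤ 1 → |y'.2 - s| ≤ 1 →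
    C.du (C.Ps f y) (C.Ps f y') ≤ K * ‖y - y'‖ := by
  obtain ⟨K, Λ, K1, -, h⟩ := h1 n N a S G C H
  obtain ⟨K', δ, K1', -, h'⟩ := h2 n N m a S G C H hm
  refine ⟨K * Real.exp (Λ * |s|) * K', by positivity, fun y y' a1 a2 a3 a4 => ?_⟩
  have e : ∀ y : ZL m, ‖y.1‖ < C.rr m → C.Ps f y = C.fu s (C.Ps f (y.1, y.2 - s)) := fun y hy => by
    rw [← C.Ps_add (y := (y.1, y.2 - s)) (C.un_uv H hf (C.Dm_lt H hm hf hy)), sub_add_cancel]
  have b := (h' f hf).1 (y.1, y.2 - s) (y'.1, y'.2 - s) a1.le a2.le a3 a4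
  rw [Prod.mk_sub_mk, sub_sub_sub_cancel_right] at b
  rw [e y a1, e y' a2, mul_assoc]
  exact ((h _ _ (C.un_Ps' H hm hf (y := (y.1, y.2 - s)) a1)
    (C.un_Ps' H hm hf (y := (y'.1, y'.2 - s)) a2)).1 s).trans
    (mul_le_mul_of_nonneg_left b (by positivity))

/-- CONT -/
lemma cont_Ps (h1 : FlS) (h2 : PsS) (hf : C.Frm f) (hy : ‖y.1‖ < C.rr m) :
    Tendsto (fun x => C.du (C.Ps f x) (C.Ps f y)) (𝓝 y) (𝓝 0) := by
  obtain ⟨K, -, h⟩ := C.lip_Ps H hm h1 h2 hf y.2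
  refine squeeze_zero' (.of_forall fun _ => C.du_nonneg _ _) (g := fun x => K * ‖x - y‖) ?_
    ((by fun_prop : Continuous fun x : ZL m => K * ‖x - y‖).tendsto' _ _ (by simp))
  filter_upwards [(by fun_prop : Continuous fun x : ZL m => ‖x.1‖).continuousAt.eventually_lt
    continuousAt_const hy, (by fun_prop : Continuous fun x : ZL m =>
    |x.2 - y.2|).continuousAt.eventually_lt continuousAt_const
    (show |y.2 - y.2| < 1 by simp)] with x a1 a2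
  exact h x y a1 hy a2.le (by simp)

/-- OPN -/
lemma opn_Ps (h2 : PsS) (hf : C.Frm f) (hy : ‖y.1‖ < C.rr m) {V : Set (ZL m)} (hV : V ∈ 𝓝 y) :
    ∃ δ > 0, ∀ p : Euc n × Euc N, C.Un p.1 p.2 → C.du p (C.Ps f y) < δ →
      ∃ x ∈ V, ‖x.1‖ < C.rr m ∧ C.Ps f x = p := by
  obtain ⟨K, δ, K1, δ0, h⟩ := h2 n N m a S G C H hm
  obtain ⟨f', hf', e⟩ := C.exists_bv hm (C.un_Ps' H hm hf hy)
  obtain ⟨a1, a2⟩ := C.loc H hm (t := 0) (y := 0) hf' hf (by simpa using C.rr_pos H hm) hy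
    (by rw [C.fu_zero, C.Ps_zero H hf', e])
  obtain ⟨ε, ε0, hε⟩ := Metric.eventually_nhds_iff.1 ((C.ev_dmL H hm hf' hf a1).and
    ((C.contDiffAt_Lt H hm hf' hf a1 0).continuousAt.eventually (a2.symm ▸ hV)))
  refine ⟨min δ (ε / K), by positivity, fun p hp hd => ?_⟩
  rw [C.du_comm, ← e, lt_min_iff, lt_div_iff₀' (by positivity)] at hd
  obtain ⟨w, b1, rfl⟩ := (h f' hf').2 p hp hd.1.le
  obtain ⟨c1, c2⟩ := hε (y := w) (by rw [dist_zero_right]; linarith [hd.2])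
  exact ⟨_, c2, C.norm_Lt H hm hf c1 0, by rw [C.Ps_Lt H hm hf' hf c1, C.fu_zero]⟩

/-- BIL -/
lemma bil_Ps (h1 : FlS) (h2 : PsS) (hf : C.Frm f) (hy : ‖y.1‖ < C.rr m) :
    ∃ K > 0, ∃ V ∈ 𝓝 y, ∀ x ∈ V, ∀ x' ∈ V, ‖x.1‖ < C.rr m ∧
      C.du (C.Ps f x) (C.Ps f x') ≤ K * ‖x - x'‖ ∧ ‖x - x'‖ ≤ K * C.du (C.Ps f x) (C.Ps f x') := by
  obtain ⟨K₀, K0, h₀⟩ := C.lip_Ps H hm h1 h2 hf y.2
  obtain ⟨K, δ, K1, δ0, h⟩ := h2 n N m a S G C H hm
  obtain ⟨ρ, r1, r2⟩ := exists_between hy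
  obtain ⟨r, L, r0, L1, hL⟩ := C.dm_ball H hm (C.du (C.Ps f y) (bv f) + 1) r2
  have rp := C.rr_pos H hm
  obtain ⟨ε, ε0, e1, e2, e3, e4, e5, e6⟩ : ∃ ε > 0, ε ≤ ρ - ‖y.1‖ ∧ ε ≤ 1 ∧ K₀ * ε ≤ 1 ∧
      K₀ * (2 * ε) ≤ δ ∧ K * (K₀ * (2 * ε)) < r ∧ K * (K₀ * (2 * ε)) < C.rr m := by
    have t : ∀ {F : ℝ → ℝ} {c : ℝ}, Continuous F → F 0 < c → ∀ᶠ ε in 𝓝[>] (0 : ℝ), F ε < c :=
      fun hF hc => mem_nhdsWithin_of_mem_nhds (hF.continuousAt.eventually_lt continuousAt_const hc)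
    obtain ⟨ε, b1, b2, b3, b4, b5, b6, b7⟩ := ((t (F := id) (c := ρ - ‖y.1‖) continuous_id
      (by simpa using r1)).and ((t (F := id) continuous_id one_pos).and
      ((t (F := fun ε => K₀ * ε) (c := 1) (by fun_prop) (by simp)).and
      ((t (F := fun ε => K₀ * (2 * ε)) (c := δ) (by fun_prop) (by simpa)).and
      ((t (F := fun ε => K * (K₀ * (2 * ε))) (c := r) (by fun_prop) (by simpa)).and
      ((t (F := fun ε => K * (K₀ * (2 * ε))) (c := C.rr m) (by fun_prop) (by simpa)).and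
      self_mem_nhdsWithin)))))).exists
    exact ⟨ε, b7, b1.le, b2.le, b3.le, b4.le, b5, b6⟩
  have b : ∀ x ∈ ball y ε, ‖x.1‖ ≤ ρ ∧ |x.2 - y.2| ≤ 1 := fun x hx => by
    rw [mem_ball_iff_norm] at hx
    exact ⟨by linarith [norm_sub_norm_le x.1 y.1, (norm_fst_le (x - y)).trans hx.le,
      show ‖(x - y).1‖ = ‖x.1 - y.1‖ from rfl], ((norm_snd_le (x - y)).trans hx.le).trans e2⟩
  refine ⟨max K₀ ((1 + L) * K), by positivity, _, ball_mem_nhds y ε0, fun x hx x' hx' => ?_⟩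
  have x1 := (b x hx).1.trans_lt r2
  have x2 := (b x' hx').1.trans_lt r2
  have d := h₀ x x' x1 x2 (b x hx).2 (b x' hx').2
  refine ⟨x1, d.trans (by gcongr; exact le_max_left _ _), ?_⟩
  have d' : C.du (C.Ps f x) (C.Ps f x') ≤ K₀ * (2 * ε) := d.trans (by
    gcongr; linarith [dist_triangle_right x x' y, mem_ball.1 hx, mem_ball.1 hx', dist_eq_norm x x'])
  obtain ⟨f', hf', e⟩ := C.exists_bv hm (C.un_Ps' H hm hf x1)
  obtain ⟨w, w1, w2⟩ := (h f' hf').2 _ (C.un_Ps' H hm hf x2) (by rw [e]; linarith)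
  rw [e] at w1
  have w3 : ‖w.1‖ ≤ K * (K₀ * (2 * ε)) := (norm_fst_le w).trans (w1.trans (by gcongr))
  obtain ⟨a1, a2⟩ := C.loc H hm (t := 0) (y := 0) hf' hf (by simpa using rp) x1
    (by rw [C.fu_zero, C.Ps_zero H hf', e])
  obtain ⟨-, a3⟩ := C.loc H hm (t := 0) hf' hf (w3.trans_lt e6) x2 (by rw [C.fu_zero, w2])
  obtain ⟨c1, c2⟩ := (hL f' f 0 hf' hf (by
    have := h₀ x y x1 hy (b x hx).2 (by simp)
    have := mul_le_mul_of_nonneg_left (mem_ball_iff_norm.1 hx).le K0.le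
    have := C.du_triangle H.a_pos.le (C.Ps f x) (C.Ps f y) (bv f)
    have := C.dd_le_du (bv f') (bv f)
    rw [e] at this
    refine le_trans (by rw [← e]; rfl) (this.trans (by linarith))) a1 (by simp [r1.le.trans' (norm_nonneg _)])
    (by rw [← Prod.fst_zero (N := ℝ), ← C.Lt_fst f' f 0, a2]; exact (b x hx).1)).2 0
    (mem_ball_self r0) w.1 (mem_ball_zero_iff.2 (w3.trans_lt e5))
  rw [zero_sub, norm_neg] at c1 c2
  have w4 := mul_le_mul_of_nonneg_left (norm_fst_le w) (zero_le_one.trans L1)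
  have c3 : ‖x - x'‖ ≤ (1 + L) * ‖w‖ := by
    rw [← a2, ← a3]
    refine norm_prod_le_iff.2 ⟨c1.trans (by linarith [norm_nonneg w]), ?_⟩
    have := abs_le.1 (norm_snd_le w)
    have := abs_le.1 c2
    simp only [Lt, Prod.snd_sub, Prod.snd_zero, Prod.fst_zero, Real.norm_eq_abs, abs_le]
    constructor <;> linarith
  refine c3.trans ((mul_le_mul_of_nonneg_left w1 (by positivity)).trans ?_)
  rw [← mul_assoc]
  exact mul_le_mul_of_nonneg_right (le_max_right _ _) (C.du_nonneg _ _)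

/-- LOC; `Q` = any property of the returns between points of `O` -/
lemma loc_Ps (hf : C.Frm f) (hg : C.Deck g) {O : Set (ZZ m)} (hO : IsOpen O) (hW : O ⊆ (C.pd f).W)
    (hy : y.1 ∈ O) (hy' : y'.1 ∈ O) (h : C.mv g t (C.Ps f y) = C.Ps f y') :
    ∃ h : ZL m → ZL m, ContDiffAt ℝ ∞ h y ∧ h y = y' ∧ ∀ᶠ x in 𝓝 y, x.1 ∈ O ∧ (h x).1 ∈ O ∧
      C.mv g t (C.Ps f x) = C.Ps f (h x) ∧
      (∀ v w, NB.pull (omL m) (fderiv ℝ h x v) (fderiv ℝ h x w) = NB.pull (omL m) v w) ∧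
      ∀ (F : Type) [NormedAddCommGroup F] [NormedSpace ℝ F] (io : ZZ m → F →L[ℝ] ZZ m),
        (∀ z ∈ O, ∀ T, (C.pd f).R z T false → T z ∈ O → ∀ b, ∃ b',
          fderiv ℝ T z (io z b) = io (T z) b') →
        NB.Rg (fderiv ℝ h x) (lif x.1 ∘L io x.1) (lif (h x).1 ∘L io (h x).1) := by
  obtain ⟨k, hk, e1, e2⟩ := hg.inv C
  have hf' := hf.fg C hk
  obtain ⟨a1, a2⟩ := C.loc_mv H hm hf hf hk e1 (mem_ball_zero_iff.1 (hW hy))
    (mem_ball_zero_iff.1 (hW hy')) h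
  have c := C.contDiffAt_Lt H hm hf hf' a1 t
  refine ⟨_, c, a2, ?_⟩
  filter_upwards [C.ev_dmL H hm hf hf' a1, continuous_fst.continuousAt.eventually (hO.mem_nhds hy),
    (continuous_fst.continuousAt.comp c.continuousAt).eventually
      (hO.mem_nhds (show (C.Lt _ _ _ y).1 ∈ O from a2.symm ▸ hy'))] with x b1 b2 b3
  refine ⟨b2, b3, ?_, fun v w => ?_, fun F _ _ io hio b => ?_⟩
  · rw [mv_eq, ← C.Ps_Lt H hm hf hf' b1, C.Ps_fg H hf hk (C.Dm_lt H hm hf (C.norm_Lt H hm hf' b1 t)),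
      dg_inv e2]
  · simpa [NB.pull, C.fderiv_Lt H hm hf hf' b1] using C.om_Tf H hm hf hf' b1 v.1 w.1
  · obtain ⟨b', hb⟩ := hio _ b2 (C.Tf f (fg k f)) ⟨k, hk, b1, EventuallyEq.rfl⟩ b3 b
    exact ⟨b', by
      rw [ContinuousLinearMap.comp_apply, C.fderiv_Lt_lif H hm hf hf' b1, hb]; rfl⟩

end Crest.Agent.N221.Cov
end
end

-- ▼ part N221/NB/Stay
section

/-! Row 221, NB (helper50): curves tangent to a graph stay on the graph. -/

set_option autoImplicit false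

open Set Filter Topology Metric

namespace Crest.Agent.N221.NB

variable {E G V : Type} [NormedAddCommGroup E] [NormedSpace ℝ E] [NormedAddCommGroup G]
  [NormedSpace ℝ G] [NormedAddCommGroup V] [NormedSpace ℝ V]

/-- a curve driven by a smooth frame that is tangent to `{φ = 0}` stays in `{φ = 0}`
(`π` = retraction on this set, `M z = Dφ z ∘ frame z`) -/
theorem stay {φ : E → V} {π : E → E} {M : E → G →L[ℝ] V} {c : ℝ → E} {v : ℝ → G} {a b : ℝ}
    (hc : ContinuousOn c (Icc a b)) (hv : ContinuousOn v (Icc a b)) (hφ : Continuous φ)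
    (hπ : ∀ z, ‖z - π z‖ ≤ ‖φ z‖)
    (hd : ∀ t ∈ Ico a b, HasDerivWithinAt (fun t => φ (c t)) (M (c t) (v t)) (Ici t) t)
    (hM : ∀ t ∈ Ico a b, φ (c t) = 0 → ContDiffAt ℝ 1 M (c t) ∧ ∀ᶠ z in 𝓝 (c t), M (π z) = 0)
    (h0 : φ (c a) = 0) : ∀ t ∈ Icc a b, φ (c t) = 0 := by
  have h1 := hφ.comp_continuousOn hc
  refine IsClosed.Icc_subset_of_forall_mem_nhdsWithin (s := {t | φ (c t) = 0})
    (inter_comm _ _ ▸ h1.preimage_isClosed_of_isClosed isClosed_Icc (isClosed_singleton (x := 0)))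
    h0 fun t ⟨ht, hab⟩ => ?_
  obtain ⟨B, hB⟩ := isCompact_Icc.exists_bound_of_continuousOn hv
  obtain ⟨h2, h3⟩ := hM t hab ht
  obtain ⟨K, U, hU, hK⟩ := h2.exists_lipschitzOnWith
  have h4 : Tendsto π (𝓝 (c t)) (𝓝 (c t)) := by
    have := (tendsto_id (x := 𝓝 (c t))).sub (squeeze_zero_norm hπ
      (by simpa [show φ (c t) = 0 from ht] using (hφ.tendsto (c t)).norm))
    simpa using this
  have h5 := (hc t (Ico_subset_Icc_self hab)).eventually (h3.and ((h4.eventually hU).and hU))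
  obtain ⟨e, he, h6⟩ := mem_nhdsGE_iff_exists_Icc_subset.1
    (inter_mem ((nhdsWithin_le_iff.2 (Icc_mem_nhdsGE_of_mem hab)) h5) (Icc_mem_nhdsGE_of_mem hab))
  have h7 : Icc t e ⊆ Icc a b := fun s hs => (h6 hs).2
  refine mem_of_superset (Icc_mem_nhdsGT he) (eq_zero_of_abs_deriv_le_mul_abs_self_of_eq_zero_right
    (K := K * B) (h1.mono h7) (fun s hs => hd s ⟨(h7 (Ico_subset_Icc_self hs)).1,
      hs.2.trans_le (h7 ⟨le_of_lt he, le_rfl⟩).2⟩) ht fun s hs => ?_)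
  obtain ⟨⟨a1, a2, a3⟩, a4⟩ := h6 (Ico_subset_Icc_self hs)
  have a5 := hK.norm_sub_le a3 a2
  rw [a1, sub_zero] at a5
  refine ((M _).le_opNorm _).trans ((mul_le_mul (a5.trans (mul_le_mul_of_nonneg_left (hπ _) K.2))
    (hB s a4) (norm_nonneg _) (by positivity)).trans_eq ?_)
  exact mul_right_comm _ _ _

/-- a curve driven by a `C¹` frame which is tangent to the graph of `F` along it stays on it -/
theorem stay_gr {F : E → V} (hF : ContDiff ℝ 2 F) {io : E × V → G →L[ℝ] E × V} {c : ℝ → E × V}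
    {v : ℝ → G} {a b : ℝ} (hc : ContinuousOn c (Icc a b)) (hv : ContinuousOn v (Icc a b))
    (hd : ∀ t ∈ Ico a b, HasDerivWithinAt c (io (c t) (v t)) (Ici t) t)
    (hio : ∀ t ∈ Ico a b, (c t).2 = F (c t).1 → ContDiffAt ℝ 1 io (c t) ∧
      ∀ᶠ q in 𝓝 (c t).1, ∀ g, (io (q, F q) g).2 = fderiv ℝ F q (io (q, F q) g).1)
    (h0 : (c a).2 = F (c a).1) : ∀ t ∈ Icc a b, (c t).2 = F (c t).1 := by
  have h := stay (φ := fun z : E × V => z.2 - F z.1) (π := fun z => (z.1, F z.1))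
    (M := fun z => (ContinuousLinearMap.snd ℝ E V -
      fderiv ℝ F z.1 ∘L ContinuousLinearMap.fst ℝ E V) ∘L io z) hc hv
    (continuous_snd.sub (hF.continuous.comp continuous_fst))
    (fun z => by simp [Prod.norm_def]) (fun t ht => ?_) (fun t ht h => ?_) (sub_eq_zero.2 h0)
  · exact fun t ht => sub_eq_zero.1 (h t ht)
  · have h1 := hd t ht
    exact ((hasFDerivAt_snd (𝕜 := ℝ)).sub ((hF.differentiable two_ne_zero _).hasFDerivAt.comp _
      (hasFDerivAt_fst (𝕜 := ℝ)))).comp_hasDerivWithinAt t h1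
  · obtain ⟨h1, h2⟩ := hio t ht (sub_eq_zero.1 h)
    refine ⟨(contDiffAt_const.sub ((((hF.fderiv_right (m := 1) le_rfl).comp
      contDiff_fst).contDiffAt).clm_comp contDiffAt_const)).clm_comp h1, ?_⟩
    filter_upwards [continuous_fst.continuousAt.eventually h2] with z hz
    ext1 g
    exact sub_eq_zero.2 (hz g)

end Crest.Agent.N221.NB
end

-- ▼ part N221/Ni/Lf
section

/-! Row 221, Ni (helper50): the fields `leaf`, `per`, `trv` of `NB.Box` on the real objects. -/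

set_option autoImplicit false

open Set Filter Topology Metric
open scoped ContDiff RealInnerProductSpace
open Crest.GeometryTopology.Submanifold
open Crest.Agent.R241.DDefs Crest.Agent.R241.D2
open Crest.Agent.R208.J Crest.Agent.R208.L

noncomputable section

namespace Crest.Agent.N221

lemma hd_fst {A B : Type} [NormedAddCommGroup A] [NormedSpace ℝ A] [NormedAddCommGroup B]
    [NormedSpace ℝ B] {x : ℝ → A × B} {w : A × B} {t : ℝ} (h : HasDerivAt x w t) :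
    HasDerivAt (fun t => (x t).1) w.1 t := (ContinuousLinearMap.fst ℝ A B).hasFDerivAt.comp_hasDerivAt t h

lemma hd_snd {A B : Type} [NormedAddCommGroup A] [NormedSpace ℝ A] [NormedAddCommGroup B]
    [NormedSpace ℝ B] {x : ℝ → A × B} {w : A × B} {t : ℝ} (h : HasDerivAt x w t) :
    HasDerivAt (fun t => (x t).2) w.2 t := (ContinuousLinearMap.snd ℝ A B).hasFDerivAt.comp_hasDerivAt t h

namespace Cov

variable {n N m : ℕ} {a : ℝ} {S : Set (Euc N)} {G : Geo n N (-(a ^ 2)) S} (C : Cov G)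
variable {f : FF n N m} {F : Type} [NormedAddCommGroup F] [NormedSpace ℝ F]
  {io : ZZ m → F →L[ℝ] ZZ m} {O : Set (ZZ m)} {c : ℝ → ZZ m} {σ : ℝ → ℝ} {v : ℝ → F} {s t : ℝ}
variable (H : Hyp n N a S) (hm : m + 1 = n)
include H hm

/-- a curve driven by a `C¹` frame of `E^s` vectors keeps its forward end point -/
lemma stay_s (hf : C.Frm f) (hO : IsOpen O) (hW : O ⊆ ball 0 (C.rr m)) (hio : ContDiffOn ℝ 1 io O)
    (hE : ∀ z ∈ O, ∀ g, (io z g).2 = C.Ss f z (io z g).1) (hc : ContinuousOn c (Icc s t))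
    (hv : ContinuousOn v (Icc s t)) (hcO : ∀ τ ∈ Icc s t, c τ ∈ O)
    (hd : ∀ τ ∈ Ico s t, HasDerivWithinAt c (io (c τ) (v τ)) (Ici τ) τ) :
    ∀ τ ∈ Icc s t, (C.ge f (c τ)).1 = (C.ge f (c s)).1 := by
  intro τ hτ
  have r := C.rr_pos H hm
  have b : ∀ z ∈ O, ‖z‖ ≤ 2 * C.rr m := fun z hz => by
    linarith [mem_ball_zero_iff.1 (hW hz)]
  have s0 := hcO s ⟨le_rfl, hτ.1.trans hτ.2⟩
  have fw := (C.rad H hm).front f hf _ (b _ s0)
  have d := C.contDiff_pq H (bas_ne0 fw.1) f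
  have h := NB.stay_gr (F := C.pq f (C.ge f (c s)).1) (d.of_le (by norm_cast)) hc hv hd
    (fun τ hτ h => ?_) (congrArg Prod.snd (C.eq_gs H hf (C.Dm_of_le H hm hf (b _ s0)))).symm τ hτ
  · have h1 := (C.ge_gs H hm hf fw ((norm_fst_le _).trans (b _ (hcO τ hτ)))).2.2
    rwa [gs, ← h] at h1
  · have h1 := hcO τ (Ico_subset_Icc_self hτ)
    refine ⟨hio.contDiffAt (hO.mem_nhds h1), ?_⟩
    have h2 : ∀ᶠ q in 𝓝 (c τ).1, (q, C.pq f (C.ge f (c s)).1 q) ∈ O :=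
      (continuous_id.prodMk d.continuous).continuousAt.eventually (hO.mem_nhds (by
        simpa only [id, ← h] using h1))
    filter_upwards [h2] with q hq g
    rw [hE _ hq, Ss]
    exact congrArg (fun ξ => C.HH f ξ q _)
      (C.ge_gs H hm hf fw ((norm_fst_le (q, _)).trans (b _ hq))).2.2

/-- the lifted curve `(c, σ)`, `σ' = -⟪p, q'⟫`, keeps the Busemann level of `φ_σ (hy, uv)` -/
lemma stay_lev (hf : C.Frm f) (hO : IsOpen O) (hW : O ⊆ ball 0 (C.rr m))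
    (hio : ContDiffOn ℝ 1 io O) (hE : ∀ z ∈ O, ∀ g, (io z g).2 = C.Ss f z (io z g).1)
    (hc : ContinuousOn c (Icc s t)) (hv : ContinuousOn v (Icc s t)) (hcO : ∀ τ ∈ Icc s t, c τ ∈ O)
    (hd : ∀ τ ∈ Ico s t, HasDerivWithinAt c (io (c τ) (v τ)) (Ici τ) τ)
    (hσ : ContinuousOn σ (Icc s t))
    (hd' : ∀ τ ∈ Ico s t, HasDerivWithinAt σ (-⟪(c τ).2, (io (c τ) (v τ)).1⟫) (Ici τ) τ) :
    ∀ τ ∈ Icc s t, σ τ + C.bq f (C.ge f (c s)).1 (c τ).1 =
      σ s + C.bq f (C.ge f (c s)).1 (c s).1 := by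
  intro τ hτ
  have h := C.stay_s H hm hf hO hW hio hE hc hv hcO hd
  have d : ∀ τ ∈ Icc s t, c τ ∈ C.Dm f := fun τ hτ =>
    C.Dm_lt H hm hf (mem_ball_zero_iff.1 (hW (hcO τ hτ)))
  have x0 := bas_ne0 (C.ge_GG H hf (d s ⟨le_rfl, hτ.1.trans hτ.2⟩)).1
  have h1 := constant_of_has_deriv_right_zero (f := fun τ => C.bq f (C.ge f (c s)).1 (c τ).1 + σ τ)
    (((C.contDiff_bq H x0 f).continuous.comp_continuousOn hc.fst).add hσ) (fun τ hτ => by
      have h2 := ((C.hasFDerivAt_bq H x0 f (c τ).1).comp (c τ)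
        (hasFDerivAt_fst (𝕜 := ℝ))).comp_hasDerivWithinAt τ (hd τ hτ)
      have h3 := congrArg Prod.snd (C.eq_gs H hf (d τ (Ico_subset_Icc_self hτ)))
      rw [h τ (Ico_subset_Icc_self hτ)] at h3
      refine (h2.add (hd' τ hτ)).congr_deriv ?_
      rw [← h3]; exact add_neg_cancel _) τ hτ
  linarith

/-- LEAF -/
lemma leaf_Ps (hf : C.Frm f) (hO : IsOpen O) (hW : O ⊆ (C.pd f).W) (hio : ContDiffOn ℝ ∞ io O)
    (hE : ∀ z ∈ O, ∀ g, io z g ∈ (C.pd f).E false z) {x : ℝ → ZL m} {g : F}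
    (hx : ∀ t ∈ Icc (0 : ℝ) 1, (x t).1 ∈ O ∧ HasDerivAt x (lif (x t).1 (io (x t).1 g)) t) :
    C.Sss (C.Ps f (x 0)) (C.Ps f (x 1)) := by
  have hc : ContinuousOn x (Icc 0 1) := fun t ht => (hx t ht).2.continuousAt.continuousWithinAt
  have d : ∀ t ∈ Icc (0 : ℝ) 1, (x t).1 ∈ C.Dm f := fun t ht =>
    C.Dm_lt H hm hf (mem_ball_zero_iff.1 (hW (hx t ht).1))
  have h1 : ∀ τ ∈ Ico (0 : ℝ) 1,
      HasDerivWithinAt (fun t => (x t).1) (io (x τ).1 g) (Ici τ) τ := fun τ hτ =>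
    (hd_fst (hx τ (Ico_subset_Icc_self hτ)).2).hasDerivWithinAt
  have hio' := hio.of_le (m := 1) (by norm_cast)
  have e1 := C.stay_s H hm hf hO hW hio' hE hc.fst continuousOn_const (fun t ht => (hx t ht).1) h1
    1 ⟨zero_le_one, le_rfl⟩
  have e2 := C.stay_lev H hm hf hO hW hio' hE hc.fst continuousOn_const (fun t ht => (hx t ht).1) h1
    hc.snd (fun τ hτ => (hd_snd (hx τ (Ico_subset_Icc_self hτ)).2).hasDerivWithinAt) 1 ⟨zero_le_one, le_rfl⟩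
  exact (C.sss_iff H hf (d 0 ⟨le_rfl, zero_le_one⟩) (d 1 ⟨zero_le_one, le_rfl⟩)).2 ⟨e1, e2⟩

/-- PER -/
lemma per_Ps (hf : C.Frm f) (hO : IsOpen O) (hne : O.Nonempty) (hW : O ⊆ (C.pd f).W) :
    ∃ z₀ ∈ O, ∃ (γ : Euc n → Euc n) (l : ℝ), C.Deck γ ∧ 0 < l ∧
      C.mv γ l (C.Ps f (z₀, 0)) = C.Ps f (z₀, 0) := by
  obtain ⟨z, hz⟩ := hne
  obtain ⟨z₀, h1, -, g, l, h⟩ := C.per_ch H hm hf (mem_ball_zero_iff.1 (hW hz)) (hO.mem_nhds hz)
  obtain ⟨k, hk, e, -⟩ := h.deck.inv C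
  refine ⟨z₀, h1, k, l, hk, h.pos, ?_⟩
  simp only [Ps, fu, mv, C.gd_zero, C.vel_zero, ← h.eq, h.vel, e]

/-- TRV -/
lemma trv_Ps (hf : C.Frm f) {z₀ w : ZZ m} (hz : z₀ ∈ (C.pd f).W) (hw : w ∈ (C.pd f).E true z₀)
    (h0 : w ≠ 0) {x : ℝ → ZL m} {σ₀ σ' : ℝ} (hx : x 0 = (z₀, σ₀)) (hd : HasDerivAt x (w, σ') 0) :
    ∃ᶠ t in 𝓝[>] (0 : ℝ), C.ep (C.Ps f (x t)).1 (C.Ps f (x t)).2 ≠
      C.ep (C.Ps f (z₀, σ₀)).1 (C.Ps f (z₀, σ₀)).2 := by
  intro h
  have r := C.rr_pos H hm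
  have b : ‖z₀‖ ≤ 2 * C.rr m := by linarith [mem_ball_zero_iff.1 hz]
  have d := C.Dm_of_le H hm hf b
  have h1 : HasDerivAt (fun t => (x t).1) w 0 := hd_fst hd
  have x0 : (x 0).1 = z₀ := by rw [hx]
  have h2 : (fun t => (x t).1.2) =ᶠ[𝓝[>] 0] fun t => C.pq f (C.ge f z₀).1 (x t).1.1 := by
    filter_upwards [h, mem_nhdsWithin_of_mem_nhds (h1.continuousAt.eventually
      ((C.isOpen_Dm H hf).mem_nhds (show (x 0).1 ∈ _ from x0.symm ▸ d)))] with t h2 h3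
    rw [not_not, C.ep_Ps H hf h3, C.ep_Ps H hf (y := (z₀, σ₀)) d] at h2
    rw [← h2]
    exact (congrArg Prod.snd (C.eq_gs H hf h3)).symm
  have h3 := ((C.hasFDerivAt_pq H (bas_ne0 (C.ge_GG H hf d).1) f (x 0).1.1).comp_hasDerivAt 0
    (hd_fst h1)).hasDerivWithinAt (s := Ioi 0)
  have h4 := (uniqueDiffWithinAt_Ioi (0 : ℝ)).eq_deriv _ (h3.congr_of_eventuallyEq h2 (by
    simp only [Function.comp, x0]; exact (congrArg Prod.snd (C.eq_gs H hf d)).symm))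
    (hd_snd h1).hasDerivWithinAt
  have h5 : w.2 = -C.HH f (C.ge f z₀).2 z₀.1 w.1 := hw
  have h6 := (C.rad H hm).neg f hf _ ((C.rad H hm).front f hf _ b) _ ((norm_fst_le _).trans b) w.1
  have h7 := (C.rad H hm).neg _ (hf.fp C) _ (C.back H hm hf b) _ ((norm_fst_le _).trans b) w.1
  rw [x0] at h4
  rw [show C.HH f (C.ge f z₀).1 z₀.1 w.1 = w.2 from h4, h5, inner_neg_left] at h6
  rw [C.HH_fp] at h7
  have h8 : w.1 = 0 := norm_eq_zero.1 (pow_eq_zero_iff two_ne_zero |>.1 (by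
    nlinarith [H.a_pos, sq_nonneg ‖w.1‖]))
  exact h0 (Prod.ext h8 (by rw [h5, h8, map_zero, neg_zero]; rfl))

end Cov

end Crest.Agent.N221
end
end

-- ▼ part N221/Fr/Ker
section

/-! Row 221, block Fr: leaf `KerS`. -/

set_option autoImplicit false

open Set Filter Topology
open scoped ContDiff

noncomputable section

namespace Crest.Agent.N221.Fr

/-- a generalised inverse -/
theorem Ker.ginv {E' H : Type} [NormedAddCommGroup E'] [NormedSpace ℝ E'] [NormedAddCommGroup H]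
    [NormedSpace ℝ H] [FiniteDimensional ℝ H] (k : E' →L[ℝ] H) :
    ∃ S : H →L[ℝ] E', (∀ v, k (S (k v)) = k v) ∧ ∀ w, S (k (S w)) = S w := by
  obtain ⟨s, hs⟩ := (k : E' →ₗ[ℝ] H).rangeRestrict.exists_rightInverse_of_surjective
    (LinearMap.range_rangeRestrict _)
  obtain ⟨t, ht⟩ := (LinearMap.range (k : E' →ₗ[ℝ] H)).subtype.exists_leftInverse_of_injective
    (Submodule.ker_subtype _)
  have h1 : ∀ y, k (s y) = y := fun y => congrArg Subtype.val (LinearMap.congr_fun hs y)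
  have h2 : ∀ y : LinearMap.range (k : E' →ₗ[ℝ] H), t y = y := fun y => LinearMap.congr_fun ht y
  refine ⟨LinearMap.toContinuousLinearMap (s ∘ₗ t), fun v => ?_, fun w => ?_⟩
  · exact (h1 _).trans (congrArg Subtype.val (h2 ⟨k v, v, rfl⟩))
  · change s (t (k (s (t w)))) = s (t w)
    rw [h1, h2]

theorem ker : KerS := by
  intro E E' H _ _ _ _ _ _ _ _ κ O hO hne hκ
  have := FiniteDimensional.complete ℝ E'
  obtain ⟨z₀, hz₀, hmin⟩ := (InvImage.wf (fun z => Module.finrank ℝ (LinearMap.ker (κ z : E' →ₗ[ℝ] H)))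
    Nat.lt_wfRel.wf).has_min O hne
  obtain ⟨S, h1, h2⟩ := Ker.ginv (κ z₀)
  obtain ⟨P, hP⟩ : ∃ P : E' →L[ℝ] E', P = 1 - S ∘L κ z₀ := ⟨_, rfl⟩
  have Pv : ∀ v, P v = v - S (κ z₀ v) := fun v => by simp [hP]
  have kP : ∀ v, κ z₀ (P v) = 0 := fun v => by rw [Pv, map_sub, h1, sub_self]
  have PP : ∀ v, P (P v) = P v := fun v => by rw [Pv (P v), kP, map_zero, sub_zero]
  have PS : ∀ w, P (S w) = 0 := fun w => by rw [Pv, h2, sub_self]
  have hB : ContDiffOn ℝ ∞ (fun z => P + S ∘L κ z) O := contDiffOn_const.add (contDiffOn_const.clm_comp hκ)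
  have e0 : P + S ∘L κ z₀ = 1 := by rw [hP, sub_add_cancel]
  refine ⟨z₀, O ∩ (fun z => P + S ∘L κ z) ⁻¹' {x | IsUnit x}, fun z => Ring.inverse (P + S ∘L κ z) ∘L P,
    hB.continuousOn.isOpen_inter_preimage hO Units.isOpen, ⟨hz₀, by simp [e0]⟩, inter_subset_left,
    fun z hz => ?_, fun z hz => ?_⟩
  · obtain ⟨u, hu⟩ := hz.2
    refine ContDiffWithinAt.clm_comp ?_ contDiffWithinAt_const
    exact (show ContDiffAt ℝ ∞ Ring.inverse (P + S ∘L κ z) from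
      (show (u : E' →L[ℝ] E') = P + S ∘L κ z from hu) ▸ contDiffAt_ringInverse ℝ u).comp_contDiffWithinAt z
        ((hB z hz.1).mono inter_subset_left)
  have hu : IsUnit (P + S ∘L κ z) := hz.2
  obtain ⟨J, hJ⟩ : ∃ J, J = Ring.inverse (P + S ∘L κ z) := ⟨_, rfl⟩
  have i1 : ∀ v, J (P v + S (κ z v)) = v := fun v => by
    rw [hJ]; exact DFunLike.congr_fun (Ring.inverse_mul_cancel _ hu) v
  have i2 : ∀ v, P (J v) + S (κ z (J v)) = v := fun v => by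
    rw [hJ]; exact DFunLike.congr_fun (Ring.mul_inverse_cancel _ hu) v
  simp only [e0, Ring.inverse_one, ← hJ, ContinuousLinearMap.comp_apply, one_apply_eq_self]
  have hle : LinearMap.ker (κ z : E' →ₗ[ℝ] H) ≤
      (LinearMap.ker (κ z₀ : E' →ₗ[ℝ] H)).map (J : E' →ₗ[ℝ] E') := fun v hv =>
    ⟨P v, kP v, by simpa [show κ z v = 0 from hv] using i1 v⟩
  have heq := Submodule.eq_of_le_of_finrank_le hle
    ((Submodule.finrank_map_le _ _).trans (not_lt.1 (hmin z hz.1)))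
  refine ⟨fun v => ?_, fun v => by rw [PP], fun v => ⟨fun hv => by simpa [hv] using i1 v, fun hv => ?_⟩⟩
  · have := congrArg P (i2 (P v))
    rwa [map_add, PS, add_zero, PP, PP] at this
  · exact (heq.ge ⟨P v, kP v, hv⟩ : v ∈ LinearMap.ker (κ z : E' →ₗ[ℝ] H))

end Crest.Agent.N221.Fr
end
end

-- ▼ part N221/Fr/Invol
section

/-! Row 221, block Fr: leaf `InvolS`. -/

set_option autoImplicit false

open Set Filter Topology VectorField
open scoped ContDiff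

noncomputable section

namespace Crest.Agent.N221.Fr

theorem invol : InvolS := by
  intro E G _ _ _ _ _ θ ρ U A B hU hθ hρ hr hA hB cA cB
  have D : ∀ V : E → E, ContDiffOn ℝ ∞ V U → (∀ z ∈ U, θ z (V z) = 0) → ∀ z ∈ U, ∀ u,
      θ z (fderiv ℝ V z u) = -fderiv ℝ θ z u (V z) := fun V hV h0 z hz u => by
    have hn := hU.mem_nhds hz
    have e := ((((hθ.contDiffAt hn).differentiableAt (by simp)).hasFDerivAt.clm_apply
      ((hV.contDiffAt hn).differentiableAt (by simp)).hasFDerivAt).congr_of_eventuallyEq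
        (f₁ := fun _ => 0) (mem_of_superset hn fun y hy => (h0 y hy).symm)).unique
          (hasFDerivAt_const 0 z)
    simpa [add_eq_zero_iff_eq_neg] using congrArg (· u) e
  have L : ∀ V W : E → E, ContDiffOn ℝ ∞ V U → ContDiffOn ℝ ∞ W U → (∀ z ∈ U, θ z (V z) = 0) →
      (∀ z ∈ U, θ z (W z) = 0) → ∀ z ∈ U,
      θ z (lieBracket ℝ V W z) = -dF θ z (V z) (W z) := fun V W hV hW v0 w0 z hz => by
    rw [lieBracket, map_sub, D V hV v0 z hz, D W hW w0 z hz, dF]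
    abel
  have S : ∀ V W : E → E, ContDiffOn ℝ ∞ V U → ContDiffOn ℝ ∞ W U →
      ContDiffOn ℝ ∞ (lieBracket ℝ V W) U := fun V W hV hW z hz =>
    ((hV.contDiffAt (hU.mem_nhds hz)).lieBracket_vectorField (hW.contDiffAt (hU.mem_nhds hz))
      (by simp)).contDiffWithinAt
  have K : ∀ V W : E → E, ContDiffOn ℝ ∞ V U → ContDiffOn ℝ ∞ W U → (∀ z ∈ U, Ch θ z (V z)) →
      (∀ z ∈ U, θ z (W z) = 0) → ∀ z ∈ U, θ z (lieBracket ℝ V W z) = 0 :=
    fun V W hV hW v0 w0 z hz => by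
      rw [L V W hV hW (fun z hz => (v0 z hz).1) w0 z hz, (v0 z hz).2 _ (w0 z hz), neg_zero]
  have h1 := K A B hA hB cA fun z hz => (cB z hz).1
  refine fun z hz => ⟨h1 z hz, fun w hw => ?_⟩
  have hZ : ContDiffOn ℝ ∞ (fun y => w - ρ y (θ y w)) U :=
    contDiffOn_const.sub (hρ.clm_apply (hθ.clm_apply contDiffOn_const))
  have z0 : ∀ y ∈ U, θ y (w - ρ y (θ y w)) = 0 := fun y hy => by rw [map_sub, hr y hy, sub_self]
  have h2 := L _ _ (S A B hA hB) hZ h1 z0 z hz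
  have hn := hU.mem_nhds hz
  have h3 := congrArg (θ z) (leibniz_identity_lieBracket (n := ∞) (by
    rw [minSmoothness_of_isRCLikeNormedField]; exact WithTop.coe_le_coe.2 le_top)
    (hA.contDiffAt hn) (hB.contDiffAt hn) (hZ.contDiffAt hn))
  rw [map_add, K A _ hA (S B _ hB hZ) cA (K B _ hB hZ cB z0) z hz,
    K B _ hB (S A _ hA hZ) cB (K A _ hA hZ cA z0) z hz, add_zero, h2] at h3
  simpa [hw, lieBracket] using h3

end Crest.Agent.N221.Fr
end
end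

-- ▼ part N221/Fr/Inv
section

/-! Row 221, block Fr: leaf `InvS`. -/

set_option autoImplicit false

open Set Filter Topology
open scoped ContDiff

noncomputable section

namespace Crest.Agent.N221.Fr

/-- uniqueness for a linear differential inequality on `[0, 1]` -/
lemma zero_iff {G : Type} [NormedAddCommGroup G] [NormedSpace ℝ G] {f f' : ℝ → G} {K : ℝ}
    (hf : ∀ t ∈ Icc (0 : ℝ) 1, HasDerivAt f (f' t) t) (hK : ∀ t ∈ Icc (0 : ℝ) 1, ‖f' t‖ ≤ K * ‖f t‖) :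
    f 1 = 0 ↔ f 0 = 0 := by
  have k : ∀ {f f' : ℝ → G}, (∀ t ∈ Icc (0 : ℝ) 1, HasDerivAt f (f' t) t) →
      (∀ t ∈ Icc (0 : ℝ) 1, ‖f' t‖ ≤ K * ‖f t‖) → f 0 = 0 → f 1 = 0 := fun hf hK h0 =>
    eq_zero_of_abs_deriv_le_mul_abs_self_of_eq_zero_right
      (fun t ht => (hf t ht).continuousAt.continuousWithinAt)
      (fun t ht => (hf t (Ico_subset_Icc_self ht)).hasDerivWithinAt) h0
      (fun t ht => hK t (Ico_subset_Icc_self ht)) 1 ⟨zero_le_one, le_rfl⟩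
  refine ⟨fun h1 => ?_, k hf hK⟩
  have m : ∀ t ∈ Icc (0 : ℝ) 1, 1 - t ∈ Icc (0 : ℝ) 1 := fun t ht =>
    ⟨by linarith [ht.2], by linarith [ht.1]⟩
  simpa using k (f := fun t => f (1 - t)) (f' := fun t => -f' (1 - t))
    (fun t ht => (hf _ (m t ht)).comp_const_sub 1 t) (fun t ht => by simpa using hK _ (m t ht))
    (by simpa using h1)

theorem inv : InvS := by
  rintro E F G _ _ _ _ _ _ _ _ _ θ ρ X U D J hU hθ hρ eρ hX hC hJ ⟨y, w⟩ hp β
  have sJ : ∀ q ∈ D, ContDiffAt ℝ ∞ J q := fun q hq => hJ.sm.contDiffAt (hJ.op.mem_nhds hq)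
  have dΦ : ∀ q ∈ D, ∀ v, ∃ T : E × F →L[ℝ] G, HasFDerivAt (fun q => θ (J q) (fderiv ℝ J q v)) T q ∧
      ∀ u, T u = fderiv ℝ θ (J q) (fderiv ℝ J q u) (fderiv ℝ J q v) +
        θ (J q) (fderiv ℝ (fderiv ℝ J) q u v) := fun q hq v => by
    have h1 := ((hθ.contDiffAt (hU.mem_nhds (hJ.mem q hq))).differentiableAt (by simp)).hasFDerivAt.comp q
      ((sJ q hq).differentiableAt (by simp)).hasFDerivAt
    have h2 := (((sJ q hq).fderiv_right (m := 1) (by norm_cast)).differentiableAt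
      one_ne_zero).hasFDerivAt.clm_apply (hasFDerivAt_const v q)
    exact ⟨_, h1.clm_apply h2, fun u => by simp [add_comm]⟩
  let A : E → G →L[ℝ] G := fun z => (fderiv ℝ θ z (X z w) - (fderiv ℝ θ z).flip (X z w)) ∘L ρ z
  have cA : ContinuousOn A U := by
    have h1 := hθ.continuousOn_fderiv_of_isOpen hU (by simp)
    have h2 := hX.clm_apply (continuousOn_const (c := w))
    exact ((h1.clm_apply h2).sub (((ContinuousLinearMap.flipₗᵢ ℝ E E G).continuous.comp_continuousOn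
      h1).clm_apply h2)).clm_comp hρ
  have hc : ∀ t ∈ Icc (0 : ℝ) 1, (y, t • w) ∈ D := hJ.star _ hp
  obtain ⟨K, hK⟩ := isCompact_Icc.exists_bound_of_continuousOn (cA.comp (f := fun t : ℝ => J (y, t • w))
    (hJ.sm.continuousOn.comp (by fun_prop) hc) fun t ht => hJ.mem _ (hc t ht))
  have key := zero_iff (f := fun t : ℝ => θ (J (y, t • w)) (fderiv ℝ J (y, t • w) (β, 0)))
    (f' := fun t => A (J (y, t • w)) (θ (J (y, t • w)) (fderiv ℝ J (y, t • w) (β, 0)))) (K := K)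
    (fun t ht => ?_) fun t ht => (ContinuousLinearMap.le_opNorm _ _).trans
      (mul_le_mul_of_nonneg_right (hK t ht) (norm_nonneg _))
  · have hy := hJ.mem1 _ hp
    have d1 := ((sJ _ (hJ.zero y hy)).differentiableAt (by simp)).hasFDerivAt.comp y
      (f := fun y => (y, (0 : F))) (hasFDerivAt_prodMk_left y 0)
    have d2 := d1.unique ((hasFDerivAt_id y).congr_of_eventuallyEq
      (mem_of_superset (hU.mem_nhds hy) hJ.init))
    have e : fderiv ℝ J (y, 0) (β, 0) = β := DFunLike.congr_fun d2 β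
    simpa only [one_smul, zero_smul, e, hJ.init y hy] using key
  · have hq := hc t ht
    have hz := hJ.mem _ hq
    obtain ⟨T, d1, e1⟩ := dΦ _ hq (β, 0)
    obtain ⟨T', d2, e2⟩ := dΦ _ hq (0, w)
    have e3 : T' = 0 := d2.unique ((hasFDerivAt_const 0 _).congr_of_eventuallyEq
      (mem_of_superset (hJ.op.mem_nhds hq) fun q hq => by
        simpa only [mem_setOf_eq, hJ.der q hq] using (hC _ (hJ.mem q hq) w).1))
    have e4 := e2 (β, 0)
    have e5 := ((sJ _ hq).isSymmSndFDerivAt (by simp; norm_cast)).eq (β, 0) (0, w)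
    have d3 : HasDerivAt (fun t : ℝ => (y, t • w)) (0, w) t := by
      simpa using (hasDerivAt_const t y).prodMk ((hasDerivAt_id t).smul_const w)
    refine (d1.comp_hasDerivAt t d3).congr_deriv ?_
    rw [e3, e5, hJ.der _ hq, zero_apply] at e4
    rw [e1, hJ.der _ hq, ← neg_eq_of_add_eq_zero_right e4.symm]
    generalize fderiv ℝ J (y, t • w) (β, 0) = v
    have e6 := (hC _ hz w).2 (v - ρ _ (θ (J (y, t • w)) v)) (by rw [map_sub, eρ _ hz, sub_self])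
    simp only [dF, map_sub, sub_apply] at e6
    simp only [A, ContinuousLinearMap.comp_apply, sub_apply, ContinuousLinearMap.flip_apply]
    linear_combination (norm := module) e6

end Crest.Agent.N221.Fr
end
end

-- ▼ part N221/Fr/Bas
section

/-! Row 221, block Fr: Frobenius chart and basic forms. -/

set_option autoImplicit false
set_option linter.unusedSectionVars false

open Set Filter Topology
open scoped ContDiff

noncomputable section

namespace Crest.Agent.N221.Fr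

section

variable {E E' G : Type} [NormedAddCommGroup E] [NormedSpace ℝ E] [NormedAddCommGroup E']
  [NormedSpace ℝ E'] [NormedAddCommGroup G] [NormedSpace ℝ G]

/-- `d` commutes with pull-back -/
lemma dF_pull {θ : E → E →L[ℝ] G} {π : E' → E} {z : E'} (hπ : ContDiffAt ℝ 2 π z)
    (hθ : DifferentiableAt ℝ θ (π z)) (v w : E') :
    dF (fun z => θ (π z) ∘L fderiv ℝ π z) z v w =
      dF θ (π z) (fderiv ℝ π z v) (fderiv ℝ π z w) := by
  have d1 := (hπ.differentiableAt (by simp)).hasFDerivAt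
  have d2 := ((hπ.fderiv_right (m := 1) (by norm_num)).differentiableAt (by simp)).hasFDerivAt
  have sy := hπ.isSymmSndFDerivAt (by simp)
  have e := ((hθ.hasFDerivAt.comp z d1).clm_comp d2).fderiv
  simp only [dF]
  rw [show fderiv ℝ (fun z => θ (π z) ∘L fderiv ℝ π z) z = _ from e]
  simp [sy v w]

lemma dF_congr {θ θ' : E → E →L[ℝ] G} {z : E} (h : θ =ᶠ[𝓝 z] θ') (v w : E) :
    dF θ z v w = dF θ' z v w := by simp only [dF, h.fderiv_eq]

lemma JF.der1 {F : Type} [NormedAddCommGroup F] [NormedSpace ℝ F] {X : E → F →L[ℝ] E}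
    {U : Set E} {D : Set (E × F)} {J : E × F → E} (h : JF X U D J) (hU : IsOpen U) {y : E}
    (hy : y ∈ U) (β : E) : fderiv ℝ J (y, 0) (β, 0) = β := by
  have d := ((h.sm.contDiffAt (h.op.mem_nhds (h.zero y hy))).differentiableAt
    (by simp)).hasFDerivAt.comp y (f := fun y' : E => (y', (0 : F))) (hasFDerivAt_prodMk_left y 0)
  have e : (J ∘ fun y' : E => (y', (0 : F))) =ᶠ[𝓝 y] id := by
    filter_upwards [hU.mem_nhds hy] with y' hy' using h.init y' hy'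
  simpa using congrArg (fun L => L β) ((d.congr_of_eventuallyEq e.symm).unique (hasFDerivAt_id y))

end

/-- FROBENIUS: a commuting family of projectors with constant kernel has a smooth retraction `π`
killing it, and every vector splits along `π` through the joint flow. -/
theorem frobJ {E : Type} [NormedAddCommGroup E] [NormedSpace ℝ E] [CompleteSpace E]
    {p : E → E →L[ℝ] E} {U : Set E} {z₀ : E} {D : Set (E × E)} {J : E × E → E} (hU : IsOpen U)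
    (hz : z₀ ∈ U) (h0 : ∀ v, p z₀ (p z₀ v) = p z₀ v) (h1 : ∀ z ∈ U, ∀ v, p z (p z₀ v) = p z v)
    (hJ : JF p U D J) :
    ∃ (V : Set E) (π Ψ : E → E), IsOpen V ∧ z₀ ∈ V ∧ V ⊆ U ∧ ContDiffOn ℝ ∞ π V ∧ ∀ z ∈ V,
      (π z, Ψ z) ∈ D ∧ J (π z, Ψ z) = z ∧ (∀ v, p z v = v → fderiv ℝ π z v = 0) ∧
      ∀ v, ∃ e, v = fderiv ℝ J (π z, Ψ z) (fderiv ℝ π z v, 0) + p z e := by
  set Q : E →L[ℝ] E := 1 - p z₀ with hQ
  set ι : E → E × E := fun e => (z₀ + Q e, e) with hι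
  have dι : ∀ e, HasFDerivAt ι (Q.prod 1) e := fun e =>
    (Q.hasFDerivAt.const_add z₀).prodMk (hasFDerivAt_id e)
  have sι : ContDiff ℝ ∞ ι := (contDiff_const.add Q.contDiff).prodMk contDiff_id
  have ι0 : ι 0 = (z₀, 0) := by simp [hι]
  set Φ : E → E := fun e => J (ι e) with hΦ
  have hJa : ∀ q ∈ D, ContDiffAt ℝ ∞ J q := fun q hq => hJ.sm.contDiffAt (hJ.op.mem_nhds hq)
  have hΦa : ∀ e, ι e ∈ D → ContDiffAt ℝ ∞ Φ e := fun e he => (hJa _ he).comp e sι.contDiffAt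
  have dΦ : ∀ e, ι e ∈ D → ∀ e', fderiv ℝ Φ e e' =
      fderiv ℝ J (ι e) (Q e', 0) + p (Φ e) e' := fun e he e' => by
    have := (((hJa _ he).differentiableAt (by simp)).hasFDerivAt.comp e (dι e)).fderiv
    rw [show fderiv ℝ Φ e = _ from this, ← hJ.der _ he, ← map_add]
    simp
  have h0D : ι 0 ∈ D := ι0 ▸ hJ.zero z₀ hz
  have Φ0 : Φ 0 = z₀ := by simp only [hΦ, ι0, hJ.init z₀ hz]
  have dΦ0 : fderiv ℝ Φ 0 = (ContinuousLinearEquiv.refl ℝ E : E →L[ℝ] E) := by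
    ext e'
    rw [dΦ 0 h0D, ι0, hJ.der1 hU hz, Φ0]
    simp [hQ]
  have hd0 : HasFDerivAt Φ (ContinuousLinearEquiv.refl ℝ E : E →L[ℝ] E) 0 :=
    dΦ0 ▸ ((hΦa 0 h0D).differentiableAt (by simp)).hasFDerivAt
  set H := (hΦa 0 h0D).toOpenPartialHomeomorph Φ hd0 (by simp) with hH
  have hHΦ : (H : E → E) = Φ := rfl
  have h0s : (0 : E) ∈ H.source := (hΦa 0 h0D).mem_toOpenPartialHomeomorph_source hd0 (by simp)
  have hD' : IsOpen (ι ⁻¹' D) := hJ.op.preimage sι.continuous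
  have hc : ContinuousOn (fderiv ℝ Φ) (ι ⁻¹' D) := fun e he =>
    ((hΦa e he).fderiv_right (m := 0) (by simp)).continuousAt.continuousWithinAt
  have hW : IsOpen (ι ⁻¹' D ∩ fderiv ℝ Φ ⁻¹' range ((↑) : (E ≃L[ℝ] E) → E →L[ℝ] E)) :=
    hc.isOpen_inter_preimage hD' ContinuousLinearEquiv.isOpen
  have hV := H.isOpen_inter_preimage_symm hW
  have hsy : H.symm z₀ = 0 := by rw [← Φ0, ← hHΦ]; exact H.left_inv h0s
  have key : ∀ z ∈ H.target ∩ H.symm ⁻¹' (ι ⁻¹' D ∩ fderiv ℝ Φ ⁻¹' range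
      ((↑) : (E ≃L[ℝ] E) → E →L[ℝ] E)), ContDiffAt ℝ ∞ H.symm z ∧ Φ (H.symm z) = z ∧
      (∀ v, fderiv ℝ Φ (H.symm z) (fderiv ℝ H.symm z v) = v) ∧
      ∀ e, fderiv ℝ H.symm z (fderiv ℝ Φ (H.symm z) e) = e := by
    rintro z ⟨hz, hD, L, hL⟩
    have dL : HasFDerivAt H (L : E →L[ℝ] E) (H.symm z) :=
      hL ▸ ((hΦa _ hD).differentiableAt (by simp)).hasFDerivAt
    have e1 := (H.hasFDerivAt_symm hz dL).fderiv
    refine ⟨H.contDiffAt_symm hz dL (hΦa _ hD), H.right_inv hz, fun v => ?_, fun e => ?_⟩ <;>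
      simp [e1, ← hL]
  refine ⟨_, fun z => z₀ + Q (H.symm z), H.symm, hV,
    ⟨Φ0 ▸ H.map_source h0s, by rw [mem_preimage, hsy]; exact ⟨h0D, _, dΦ0.symm⟩⟩,
    fun z hz => (key z hz).2.1 ▸ hJ.mem _ hz.2.1,
    fun z hz => (contDiffAt_const.add (Q.contDiff.contDiffAt.comp z (key z hz).1)).contDiffWithinAt,
    fun z hz => ?_⟩
  obtain ⟨k1, k2, k3, k4⟩ := key z hz
  have hzU : z ∈ U := k2 ▸ hJ.mem _ hz.2.1
  have dπ : ∀ v, fderiv ℝ (fun z => z₀ + Q (H.symm z)) z v = Q (fderiv ℝ H.symm z v) := fun v => by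
    rw [show fderiv ℝ (fun z => z₀ + Q (H.symm z)) z = _ from
      ((Q.hasFDerivAt.comp z (k1.differentiableAt (by simp)).hasFDerivAt).const_add z₀).fderiv]
    rfl
  have hQ0 : ∀ v, Q (p z₀ v) = 0 := fun v => by simp [hQ, h0]
  refine ⟨hz.2.1, k2, fun v hv => ?_, fun v => ⟨fderiv ℝ H.symm z v, ?_⟩⟩
  · have : fderiv ℝ Φ (H.symm z) (p z₀ v) = v := by
      rw [dΦ _ hz.2.1, hQ0, k2, h1 z hzU, hv, Prod.mk_zero_zero, map_zero, zero_add]
    rw [dπ, ← this, k4, hQ0]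
  · rw [dπ]
    conv_lhs => rw [← k3 v, dΦ _ hz.2.1, k2]

theorem bas : BasS := by
  intro E G _ _ _ _ _ _ θ O hO ⟨z₁, hz₁⟩ hθ hs
  have := FiniteDimensional.complete ℝ E
  have := FiniteDimensional.complete ℝ G
  obtain ⟨U₁, ρ, hU₁, hzU₁, hU₁O, hρ, hθρ⟩ := ri E E G θ O z₁ hO hz₁ hθ (hs z₁ hz₁)
  have hθ1 := hθ.mono hU₁O
  have hD : ContDiffOn ℝ ∞ (fderiv ℝ θ) U₁ := hθ1.fderiv_of_isOpen hU₁ (by simp)
  let κ : E → E →L[ℝ] G × (E →L[ℝ] G) := fun z => (θ z).prod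
    (((ContinuousLinearMap.compL ℝ E E G).flip (1 - ρ z ∘L θ z)) ∘L
      (fderiv ℝ θ z - (fderiv ℝ θ z).flip))
  have hκ : ContDiffOn ℝ ∞ κ U₁ := by
    refine contDiffOn_clm_apply.2 fun v => (hθ1.clm_apply contDiffOn_const).prodMk ?_
    refine contDiffOn_clm_apply.2 fun w => ?_
    have hw : ContDiffOn ℝ ∞ (fun z => w - ρ z (θ z w)) U₁ :=
      contDiffOn_const.sub (hρ.clm_apply (hθ1.clm_apply contDiffOn_const))
    exact (((hD.clm_apply (contDiffOn_const (c := v))).clm_apply hw).sub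
      ((hD.clm_apply hw).clm_apply (contDiffOn_const (c := v)))).congr fun z _ => by simp
  have hκC : ∀ z ∈ U₁, ∀ v, κ z v = 0 ↔ Ch θ z v := fun z hz v => by
    have e : ∀ w, (κ z v).2 w = dF θ z v (w - ρ z (θ z w)) := fun w => by simp [κ, dF]
    rw [Prod.ext_iff]
    refine and_congr Iff.rfl ⟨fun h w hw => ?_, fun h => ?_⟩
    · have := e w
      rw [h, hw, map_zero, sub_zero] at this
      exact this.symm
    · ext w
      rw [e]
      exact h _ (by rw [map_sub, hθρ z hz, sub_self])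
  obtain ⟨z₀, U, p, hU, hz₀, hUU, hp, hpp⟩ := ker E E _ κ U₁ hU₁ ⟨z₁, hzU₁⟩ hκ
  have hCh : ∀ z ∈ U, ∀ v, Ch θ z v ↔ p z v = v := fun z hz v =>
    (hκC z (hUU hz) v).symm.trans ((hpp z hz).2.2 v)
  have hpC : ∀ z ∈ U, ∀ ξ, Ch θ z (p z ξ) := fun z hz ξ => (hCh z hz _).2 (by
    rw [← (hpp z hz).2.1, (hpp z hz).1, (hpp z hz).2.1])
  have hθU := hθ1.mono hUU
  have hcomm : ∀ z ∈ U, ∀ ξ ξ', fderiv ℝ p z (p z ξ) ξ' = fderiv ℝ p z (p z ξ') ξ := by
    intro z hz ξ ξ'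
    have dp := ((hp.contDiffAt (hU.mem_nhds hz)).differentiableAt (by simp)).hasFDerivAt
    have e : ∀ a v, fderiv ℝ (fun z => p z a) z v = fderiv ℝ p z v a := fun a v => by
      rw [show fderiv ℝ (fun z => p z a) z = _ from
        (dp.clm_apply (hasFDerivAt_const a z)).fderiv]
      simp
    have e0 : ∀ a v, p z₀ (fderiv ℝ p z v a) = 0 := fun a v => by
      have d := (p z₀).hasFDerivAt.comp z (dp.clm_apply (hasFDerivAt_const a z))
      have c : (p z₀ ∘ fun z => p z a) =ᶠ[𝓝 z] fun _ => p z₀ a := by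
        filter_upwards [hU.mem_nhds hz] with y hy using (hpp y hy).1 a
      simpa using congrArg (fun L => L v)
        ((d.congr_of_eventuallyEq c.symm).unique (hasFDerivAt_const _ _))
    have := invol E G θ ρ U (fun z => p z ξ) (fun z => p z ξ') hU hθU (hρ.mono hUU)
      (fun z hz => hθρ z (hUU hz)) (hp.clm_apply contDiffOn_const)
      (hp.clm_apply contDiffOn_const) (fun z hz => hpC z hz ξ) (fun z hz => hpC z hz ξ') z hz
    rw [hCh z hz, e, e, ← (hpp z hz).2.1, map_sub (p z₀), e0, e0, sub_zero, map_zero] at this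
    exact sub_eq_zero.1 this.symm
  obtain ⟨D, J, hJ⟩ := jf E E p U hU hp hcomm
  have hi := inv E E G θ ρ p U D J hU hθU (hρ.mono hUU).continuousOn (fun z hz => hθρ z (hUU hz))
    hp.continuousOn hpC hJ
  obtain ⟨V, π, Ψ, hV, hzV, hVU, hπ, hk⟩ :=
    frobJ hU hz₀ (hpp z₀ hz₀).1 (fun z hz => (hpp z hz).2.1) hJ
  have hπU : ∀ z ∈ V, π z ∈ U := fun z hz => hJ.mem1 _ (hk z hz).1
  have hker : ∀ z ∈ V, ∀ v, θ z v = 0 ↔ θ (π z) (fderiv ℝ π z v) = 0 := fun z hz v => by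
    obtain ⟨k1, k2, -, k4⟩ := hk z hz
    obtain ⟨e, he⟩ := k4 v
    rw [← hi _ k1, k2]
    conv_lhs => rw [he, map_add, (hpC z (hVU hz) e).1, add_zero]
  have hA : ∀ z ∈ V, ((θ (π z) ∘L fderiv ℝ π z) ∘L ρ z) ∘L θ z = θ (π z) ∘L fderiv ℝ π z :=
    fun z hz => by
      ext v
      have := (hker z hz (v - ρ z (θ z v))).1 (by rw [map_sub, hθρ z (hUU (hVU hz)), sub_self])
      rw [map_sub, map_sub, sub_eq_zero] at this
      exact this.symm
  refine ⟨V, fun z => (θ (π z) ∘L fderiv ℝ π z) ∘L ρ z, hV, ⟨z₀, hzV⟩,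
    hVU.trans (hUU.trans hU₁O), ((hθU.comp hπ hπU).clm_comp
      (hπ.fderiv_of_isOpen hV (by simp))).clm_comp (hρ.mono (hVU.trans hUU)), fun z hz => ⟨?_, ?_⟩⟩
  · refine (injective_iff_map_eq_zero _).2 fun g hg => ?_
    rw [← hθρ z (hUU (hVU hz)) g]
    exact (hker z hz _).2 hg
  · intro v hv w
    rw [dF_congr (θ' := fun z => θ (π z) ∘L fderiv ℝ π z)
      (by filter_upwards [hV.mem_nhds hz] with y hy using hA y hy),
      dF_pull ((hπ.contDiffAt (hV.mem_nhds hz)).of_le two_le')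
        ((hθU.contDiffAt (hU.mem_nhds (hπU z hz))).differentiableAt (by simp)),
      (hk z hz).2.2.1 v ((hCh z (hVU hz) v).1 hv)]
    simp [dF]

end Crest.Agent.N221.Fr
end
end

-- ▼ part N221/Fr/Om
section

/-! Row 221, block Fr: symplectic versions. Basic frames; the maximal bundle `I ⊆ Ch (I^Ω)`. -/

set_option autoImplicit false
set_option linter.unusedSectionVars false
set_option maxSynthPendingDepth 3

open Set Filter Topology Module
open scoped ContDiff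

noncomputable section

namespace Crest.Agent.N221.Fr

open SB

variable {E : Type} [NormedAddCommGroup E] [NormedSpace ℝ E] [FiniteDimensional ℝ E]
  {Ω : E →L[ℝ] E →L[ℝ] ℝ}

lemma om_surj (nd : ∀ v, (∀ w, Ω v w = 0) → v = 0) : Function.Surjective Ω := by
  have h : finrank ℝ E = finrank ℝ (E →L[ℝ] ℝ) := by
    rw [← (LinearMap.toContinuousLinearMap (𝕜 := ℝ) (E := E) (F' := ℝ)).finrank_eq]
    exact Subspace.dual_finrank_eq.symm
  exact (LinearMap.injective_iff_surjective_of_finrank_eq_finrank h (f := (Ω : E →ₗ[ℝ] _))).1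
    ((injective_iff_map_eq_zero _).2 fun v hv => nd v fun w => by
      rw [show Ω v = 0 from hv]; rfl)

/-- double orthogonal -/
lemma mem_of_perp (sk : ∀ v w, Ω v w = -Ω w v) (nd : ∀ v, (∀ w, Ω v w = 0) → v = 0)
    {K : Submodule ℝ E} {w : E} (h : ∀ y, (∀ k ∈ K, Ω k y = 0) → Ω y w = 0) : w ∈ K := by
  by_contra hw
  obtain ⟨l, h1, h2⟩ := K.exists_dual_map_eq_bot_of_notMem hw inferInstance
  obtain ⟨y, hy⟩ := om_surj nd (LinearMap.toContinuousLinearMap l)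
  refine h1 ?_
  have := h y fun k hk => by
    have : l k = 0 := by
      have : l k ∈ K.map l := ⟨k, hk, rfl⟩
      rwa [h2, Submodule.mem_bot] at this
    rw [sk, hy]; simp [this]
  rwa [hy] at this

lemma dF_om {ζ : E → E} {z : E} (h : DifferentiableAt ℝ ζ z) (v w : E) :
    dF (fun y => Ω (ζ y)) z v w = Ω (fderiv ℝ ζ z v) w - Ω (fderiv ℝ ζ z w) v := by
  simp only [dF]
  rw [show fderiv ℝ (fun y => Ω (ζ y)) z = _ from (Ω.hasFDerivAt.comp z h.hasFDerivAt).fderiv]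
  rfl

lemma fderiv_app {F : Type} [NormedAddCommGroup F] [NormedSpace ℝ F] {G : Type}
    [NormedAddCommGroup G] [NormedSpace ℝ G] {p : E → F →L[ℝ] G} {z : E}
    (h : DifferentiableAt ℝ p z) (a : F) (v : E) :
    fderiv ℝ (fun z => p z a) z v = fderiv ℝ p z v a := by
  rw [show fderiv ℝ (fun z => p z a) z = _ from
    (h.hasFDerivAt.clm_apply (hasFDerivAt_const a z)).fderiv]
  simp

/-- `v` is a characteristic direction of `Y^Ω` at `z` -/
def ChO (Ω : E →L[ℝ] E →L[ℝ] ℝ) (Y : E → Submodule ℝ E) (z v : E) : Prop :=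
  (∀ y ∈ Y z, Ω y v = 0) ∧ ∀ ζ : E → E, DifferentiableAt ℝ ζ z → (∀ᶠ y in 𝓝 z, ζ y ∈ Y y) →
    ∀ w, (∀ y ∈ Y z, Ω y w = 0) → Ω (fderiv ℝ ζ z v) w = Ω (fderiv ℝ ζ z w) v

/-- BASIC FRAME: `d (i_u Ω)` is killed by all characteristic directions of `Y^Ω` -/
theorem basic (sk : ∀ v w, Ω v w = -Ω w v) (nd : ∀ v, (∀ w, Ω v w = 0) → v = 0)
    {Y : E → Submodule ℝ E} {O : Set E} (hO : IsOpen O) (hne : O.Nonempty)
    (hY : ∀ z ∈ O, SmAt ∞ Y z) :
    ∃ (r : ℕ) (U : Set E) (u : E → (Fin r → ℝ) →L[ℝ] E), IsOpen U ∧ U.Nonempty ∧ U ⊆ O ∧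
      ContDiffOn ℝ ∞ u U ∧ ∀ z ∈ U, Function.Injective (u z) ∧ (u z).range = Y z ∧
        ∀ v, ChO Ω Y z v → ∀ g w, Ω (fderiv ℝ u z v g) w = Ω (fderiv ℝ u z w g) v := by
  obtain ⟨z₀, hz₀⟩ := hne
  obtain ⟨r, e, he, he'⟩ : ∃ (r : ℕ) (e : E → (Fin r → ℝ) →L[ℝ] E), Cn ∞ e z₀ ∧
      ∀ᶠ y in 𝓝 z₀, Function.Injective (e y) ∧ (e y).range = Y y := ⟨_, (hY z₀ hz₀).frame⟩
  obtain ⟨U₀, h1, hU₀, hzU₀⟩ := eventually_nhds_iff.1
    ((Eventually.and he he').and (show ∀ᶠ y in 𝓝 z₀, y ∈ O from hO.mem_nhds hz₀))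
  have hes : ContDiffOn ℝ ∞ e U₀ := fun y hy => (h1 y hy).1.1.contDiffWithinAt
  let θ : E → E →L[ℝ] ((Fin r → ℝ) →L[ℝ] ℝ) := fun z =>
    ((ContinuousLinearMap.compL ℝ (Fin r → ℝ) E ℝ).flip (e z)) ∘L Ω.flip
  have hθa : ∀ z v g, θ z v g = Ω (e z g) v := fun _ _ _ => rfl
  have hθ : ContDiffOn ℝ ∞ θ U₀ :=
    contDiffOn_clm_apply.2 fun v => contDiffOn_clm_apply.2 fun g =>
      ((Ω.flip v).contDiff.comp_contDiffOn (hes.clm_apply (contDiffOn_const (c := g))))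
  have hs : ∀ z ∈ U₀, Function.Surjective (θ z) := fun z hz l => by
    obtain ⟨k, hk⟩ := (e z : (Fin r → ℝ) →ₗ[ℝ] E).exists_leftInverse_of_injective
      (LinearMap.ker_eq_bot.2 (h1 z hz).1.2.1)
    obtain ⟨y, hy⟩ := om_surj nd (l ∘L LinearMap.toContinuousLinearMap k)
    refine ⟨-y, ContinuousLinearMap.ext fun g => ?_⟩
    rw [hθa, sk, map_neg Ω, hy]
    have := LinearMap.congr_fun hk g
    simp only [LinearMap.comp_apply, ContinuousLinearMap.coe_coe, LinearMap.id_apply] at this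
    simp [this]
  obtain ⟨U, A, hU, hUne, hUU, hA, hAA⟩ := bas E _ θ U₀ hU₀ ⟨z₀, hzU₀⟩ hθ hs
  let B : E → (Fin r → ℝ) →L[ℝ] (Fin r → ℝ) := fun z =>
    ContinuousLinearMap.pi fun i => A z (ContinuousLinearMap.proj i)
  have hB : ∀ z (l : (Fin r → ℝ) →L[ℝ] ℝ) g, l (B z g) = A z l g := fun z l g => by
    have e1 : l = ∑ i, l (Pi.single i 1) • ContinuousLinearMap.proj i := by
      ext x
      conv_lhs => rw [pi_eq_sum_univ' x, map_sum]
      simp [mul_comm]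
    conv_rhs => rw [e1]
    conv_lhs => rw [e1]
    simp [B]
  have hBs : ContDiffOn ℝ ∞ B U := contDiffOn_clm_apply.2 fun g => contDiffOn_pi.2 fun i =>
    (hA.clm_apply (contDiffOn_const (c := ContinuousLinearMap.proj i))).clm_apply
      (contDiffOn_const (c := g))
  have hBi : ∀ z ∈ U, Function.Injective (B z) := fun z hz =>
    (injective_iff_map_eq_zero _).2 fun g hg => by
      ext i
      obtain ⟨l, hl⟩ := (LinearMap.injective_iff_surjective (f := (A z).toLinearMap)).1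
        (hAA z hz).1 (ContinuousLinearMap.proj i)
      have := hB z l g
      rw [hg, map_zero, show A z l = _ from hl] at this
      exact this.symm
  have hu : ContDiffOn ℝ ∞ (fun z => e z ∘L B z) U := (hes.mono hUU).clm_comp hBs
  refine ⟨r, U, fun z => e z ∘L B z, hU, hUne, fun z hz => (h1 z (hUU hz)).2, hu,
    fun z hz => ⟨(h1 z (hUU hz)).1.2.1.comp (hBi z hz), ?_, fun v hv g w => ?_⟩⟩
  · rw [← (h1 z (hUU hz)).1.2.2]
    refine le_antisymm (by rintro _ ⟨g, rfl⟩; exact ⟨_, rfl⟩) ?_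
    rintro _ ⟨g, rfl⟩
    obtain ⟨g', rfl⟩ := (LinearMap.injective_iff_surjective (f := (B z : _ →ₗ[ℝ] _))).1 (hBi z hz) g
    exact ⟨g', rfl⟩
  · have hz0 := hU₀.mem_nhds (hUU hz)
    have de := (hes.contDiffAt hz0).differentiableAt (by simp)
    have dθ := (hθ.contDiffAt hz0).differentiableAt (by simp)
    have hr : ∀ y ∈ U₀, ∀ g, e y g ∈ Y y := fun y hy g => (h1 y hy).1.2.2 ▸ ⟨g, rfl⟩
    have hd : ∀ {ϑ : E → E →L[ℝ] ((Fin r → ℝ) →L[ℝ] ℝ)} {ε : E → (Fin r → ℝ) →L[ℝ] E},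
        DifferentiableAt ℝ ϑ z → DifferentiableAt ℝ ε z → (∀ y v g, ϑ y v g = Ω (ε y g) v) →
        ∀ v w g, dF ϑ z v w g = Ω (fderiv ℝ ε z v g) w - Ω (fderiv ℝ ε z w g) v := by
      intro ϑ ε h1 h2 h3
      have : ∀ v w g, fderiv ℝ ϑ z v w g = Ω (fderiv ℝ ε z v g) w := fun v w g => by
        rw [← fderiv_app h1, ← fderiv_app (h1.clm_apply (differentiableAt_const w)),
          ← fderiv_app h2]
        simp only [h3]
        rw [show fderiv ℝ (fun y => Ω (ε y g) w) z = _ from ((Ω.flip w).hasFDerivAt.comp z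
          (h2.clm_apply (differentiableAt_const g)).hasFDerivAt).fderiv]
        rfl
      intro v w g
      simp [dF, this]
    have hC : Ch θ z v := ⟨ContinuousLinearMap.ext fun g => hv.1 _ (hr z (hUU hz) g), fun w hw => by
      ext1 g
      have := hv.2 (fun y => e y g) (de.clm_apply (differentiableAt_const g))
        (by filter_upwards [hz0] with y hy using hr y hy g) w fun y hy => by
          rw [← (h1 z (hUU hz)).1.2.2] at hy
          obtain ⟨g, rfl⟩ := hy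
          exact (hθa z w g).symm.trans (by rw [hw]; rfl)
      rw [fderiv_app de, fderiv_app de] at this
      rw [hd dθ de hθa, this, sub_self]
      rfl⟩
    have := congrArg (fun l => l g) ((hAA z hz).2 v hC w)
    simp only [zero_apply] at this
    rwa [hd (ε := fun z => e z ∘L B z)
      (((hA.contDiffAt (hU.mem_nhds hz)).differentiableAt (by simp)).clm_comp dθ)
      ((hu.contDiffAt (hU.mem_nhds hz)).differentiableAt (by simp))
      (fun y v g => (hB y _ g).symm), sub_eq_zero] at this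

/-- a Lagrangian foliation `Es` with smooth leaves and a pseudogroup `R` of symplectic germs -/
structure Sys (Ω : E →L[ℝ] E →L[ℝ] ℝ) (W : Set E) (Es : E → Submodule ℝ E)
    (R : E → (E → E) → Prop) : Prop where
  sk : ∀ v w, Ω v w = -Ω w v
  nd : ∀ v, (∀ w, Ω v w = 0) → v = 0
  op : IsOpen W
  lag : ∀ z ∈ W, ∀ v, v ∈ Es z ↔ ∀ w ∈ Es z, Ω w v = 0
  leaf : ∀ z ∈ W, ∃ σ : E → E, ContDiffAt ℝ 2 σ z ∧ σ z = z ∧
    (∀ v ∈ Es z, fderiv ℝ σ z v = v) ∧ ∀ᶠ x in 𝓝 z, ∀ ξ, fderiv ℝ σ x ξ ∈ Es (σ x)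
  smooth : ∀ z T, R z T → ContDiffAt ℝ ∞ T z
  ev : ∀ z T, R z T → ∀ᶠ y in 𝓝 z, R y T
  inv : ∀ z T, R z T → ∃ T', R (T z) T' ∧ T' ∘ T =ᶠ[𝓝 z] id ∧ T ∘ T' =ᶠ[𝓝 (T z)] id
  sp : ∀ z T, R z T → ∀ v w, Ω (fderiv ℝ T z v) (fderiv ℝ T z w) = Ω v w

/-- smooth invariant bundles between `Y` and `Es` -/
structure Cl (W : Set E) (Es : E → Submodule ℝ E) (R : E → (E → E) → Prop)
    (Y : E → Submodule ℝ E) (O : Set E) (I : E → Submodule ℝ E) : Prop where
  op : IsOpen O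
  ne : O.Nonempty
  sub : O ⊆ W
  sm : ∀ z ∈ O, SmAt ∞ I z
  le1 : ∀ z ∈ O, Y z ≤ I z
  le2 : ∀ z ∈ O, I z ≤ Es z
  map : ∀ z ∈ O, ∀ T, R z T → T z ∈ O → ∀ v ∈ I z, fderiv ℝ T z v ∈ I (T z)

variable {W O : Set E} {Es Y I : E → Submodule ℝ E} {R : E → (E → E) → Prop}

lemma Cl.mono (h : Cl W Es R Y O I) {V : Set E} (hV : IsOpen V) (hne : V.Nonempty) (hs : V ⊆ O) :
    Cl W Es R Y V I :=
  ⟨hV, hne, hs.trans h.sub, fun z hz => h.sm z (hs hz), fun z hz => h.le1 z (hs hz),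
    fun z hz => h.le2 z (hs hz), fun z hz T a b => h.map z (hs hz) T a (hs b)⟩

/-- `d (i_ζ Ω)` vanishes on the leaves -/
lemma Sys.leaf0 (S : Sys Ω W Es R) {z : E} (hz : z ∈ W) {ζ : E → E} (hd : DifferentiableAt ℝ ζ z)
    (hζ : ∀ᶠ y in 𝓝 z, ζ y ∈ Es y) {v w : E} (hv : v ∈ Es z) (hw : w ∈ Es z) :
    Ω (fderiv ℝ ζ z v) w = Ω (fderiv ℝ ζ z w) v := by
  obtain ⟨σ, h1, h2, h3, h4⟩ := S.leaf z hz
  have hc : Tendsto σ (𝓝 z) (𝓝 z) := by simpa [ContinuousAt, h2] using h1.continuousAt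
  have := dF_pull (θ := fun y => Ω (ζ y)) h1
    (Ω.differentiableAt.comp _ (by rw [h2]; exact hd)) v w
  rw [dF_congr (θ' := fun _ => 0), h2, h3 v hv, h3 w hw, dF_om hd] at this
  · exact sub_eq_zero.1 (this.symm.trans (by simp [dF]))
  · filter_upwards [h4, hc.eventually hζ, hc.eventually (S.op.mem_nhds hz)] with x a b c
    ext ξ
    exact (S.lag _ c _).1 (a ξ) _ b

/-- the directions `w ⊥ I` killed by all `i_v d (i_ζ Ω)` -/
def KK (Ω : E →L[ℝ] E →L[ℝ] ℝ) (I : E → Submodule ℝ E) (z : E) : Submodule ℝ E where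
  carrier := {w | (∀ y ∈ I z, Ω y w = 0) ∧ ∀ ζ : E → E, DifferentiableAt ℝ ζ z →
    (∀ᶠ y in 𝓝 z, ζ y ∈ I y) → ∀ v ∈ I z, Ω (fderiv ℝ ζ z v) w = Ω (fderiv ℝ ζ z w) v}
  add_mem' := fun a b => ⟨fun y hy => by simp [a.1 y hy, b.1 y hy],
    fun ζ h1 h2 v hv => by simp [a.2 ζ h1 h2 v hv, b.2 ζ h1 h2 v hv]⟩
  zero_mem' := ⟨by simp, by simp⟩
  smul_mem' := fun c w a => ⟨fun y hy => by simp [a.1 y hy],
    fun ζ h1 h2 v hv => by simp [a.2 ζ h1 h2 v hv]⟩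

/-- `Ω`-orthogonal -/
def prp (Ω : E →L[ℝ] E →L[ℝ] ℝ) (K : Submodule ℝ E) : Submodule ℝ E where
  carrier := {v | ∀ y ∈ K, Ω y v = 0}
  add_mem' := fun h h' y hy => by rw [map_add, h y hy, h' y hy, add_zero]
  zero_mem' := fun y _ => map_zero _
  smul_mem' := fun c v h y hy => by rw [map_smul, h y hy, smul_zero]

lemma Sys.es_le (S : Sys Ω W Es R) (h : Cl W Es R Y O I) {z : E} (hz : z ∈ O) :
    Es z ≤ KK Ω I z := fun w hw =>
  ⟨fun y hy => (S.lag z (h.sub hz) w).1 hw y (h.le2 z hz hy), fun ζ h1 h2 v hv =>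
    S.leaf0 (h.sub hz) h1 (by filter_upwards [h2, h.op.mem_nhds hz] with y a b using h.le2 y b a)
      (h.le2 z hz hv) hw⟩

lemma Sys.cut (S : Sys Ω W Es R) (h : Cl W Es R Y O I) {z : E} (hz : z ∈ O) :
    Cut ∞ (KK Ω I) z := by
  obtain ⟨p, hp, hpI⟩ := h.sm z hz
  have hD : Cn ∞ (fderiv ℝ p) z := hp.mono fun y a => a.fderiv_right (by simp)
  let μ : E → E →L[ℝ] E →L[ℝ] E →L[ℝ] ℝ := fun y =>
    (ContinuousLinearMap.compL ℝ E (E →L[ℝ] E) (E →L[ℝ] ℝ)).flip (fderiv ℝ p y) ∘L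
      ContinuousLinearMap.compL ℝ E E ℝ ∘L Ω.flip -
    ((ContinuousLinearMap.compL ℝ E (E →L[ℝ] E) (E →L[ℝ] ℝ)).flip (fderiv ℝ p y) ∘L
      ContinuousLinearMap.compL ℝ E E ℝ ∘L Ω.flip).flip
  have hμ : ∀ y w v a, μ y w v a = Ω (fderiv ℝ p y v a) w - Ω (fderiv ℝ p y w a) v :=
    fun _ _ _ _ => rfl
  let K1 : E → Submodule ℝ E := fun y => prp Ω (I y)
  let K2 : E → Submodule ℝ E := fun y =>
    { carrier := {w | ∀ v ∈ I y, ∀ a ∈ I y, μ y w v a = 0}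
      add_mem' := fun a b v hv c hc => by simp [a v hv c hc, b v hv c hc]
      zero_mem' := by simp
      smul_mem' := fun c w a v hv d hd => by simp [a v hv d hd] }
  have c1 : Cut ∞ K1 z := Cut.ann (h.sm z hz).gen (μ := fun _ => Ω.flip) (Cn.const _)
    (Eventually.of_forall fun _ _ => Iff.rfl)
  have c2 : Cut ∞ K2 z := Cut.ann₂ (h.sm z hz).gen (h.sm z hz).gen (μ := μ) (fun w v a => by
    simp only [hμ]
    exact hD.mono fun y b => ((Ω.flip w).contDiff.contDiffAt.comp y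
      ((b.clm_apply contDiffAt_const).clm_apply contDiffAt_const)).sub
      ((Ω.flip v).contDiff.contDiffAt.comp y
        ((b.clm_apply contDiffAt_const).clm_apply contDiffAt_const)))
    (Eventually.of_forall fun _ _ => Iff.rfl)
  refine (c1.inf c2).congr ?_
  filter_upwards [hp, hpI.eventually_nhds, h.op.mem_nhds hz] with y a b c
  have dp := a.differentiableAt (by simp)
  ext w
  refine and_congr_right fun hw => ⟨fun k v hv a ha => ?_, fun k ζ h1 h2 v hv => ?_⟩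
  · have := k (fun y => p y a) (dp.clm_apply (differentiableAt_const a)) (b.mono fun y c => c.1 a)
      v hv
    rw [fderiv_app dp, fderiv_app dp] at this
    rw [hμ, this, sub_self]
  · have e : ζ =ᶠ[𝓝 y] fun y => p y (ζ y) := by
      filter_upwards [b, h2] with x c d using (c.2 _ d).symm
    have e2 : ∀ x, fderiv ℝ ζ y x = fderiv ℝ p y x (ζ y) + p y (fderiv ℝ ζ y x) := fun x => by
      conv_lhs => rw [e.fderiv_eq, show fderiv ℝ (fun y => p y (ζ y)) y = _ from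
        (dp.hasFDerivAt.clm_apply h1.hasFDerivAt).fderiv]
      simp [add_comm]
    have := k v hv _ h2.self_of_nhds
    rw [hμ, sub_eq_zero] at this
    rw [e2 v, e2 w, map_add, map_add, add_apply, add_apply,
      this, hw _ (b.self_of_nhds.1 _),
      (S.lag y (h.sub c) v).1 (h.le2 y c hv) _ (h.le2 y c (b.self_of_nhds.1 _))]

lemma Sys.back (S : Sys Ω W Es R) (h : Cl W Es R Y O I) {z : E} (hz : z ∈ O) {T : E → E}
    (hT : R z T) (hTz : T z ∈ O) {w : E} (hw : fderiv ℝ T z w ∈ KK Ω I (T z)) : w ∈ KK Ω I z := by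
  refine ⟨fun y hy => by rw [← S.sp z T hT, hw.1 _ (h.map z hz T hT hTz y hy)],
    fun ζ h1 h2 v hv => ?_⟩
  obtain ⟨T', k1, k2, k3⟩ := S.inv z T hT
  have e0 : T' (T z) = z := k2.self_of_nhds
  have sT := S.smooth z T hT
  have sT' := (S.smooth _ T' k1).differentiableAt (by simp)
  have cT' : Tendsto T' (𝓝 (T z)) (𝓝 z) := by simpa [ContinuousAt, e0] using sT'.continuousAt
  have dζ : DifferentiableAt ℝ (fun y => fderiv ℝ T (T' y) (ζ (T' y))) (T z) := by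
    have : DifferentiableAt ℝ (fun x => fderiv ℝ T x (ζ x)) (T' (T z)) := by
      rw [e0]
      exact ((sT.fderiv_right (m := 1) two_le).differentiableAt (by simp)).clm_apply h1
    exact this.comp _ sT'
  have := hw.2 _ dζ (by
    filter_upwards [cT'.eventually h2, cT'.eventually (h.op.mem_nhds hz),
      cT'.eventually (S.ev z T hT), k3, h.op.mem_nhds hTz] with y a b c d e
    have d' : T (T' y) = y := d
    simpa [d'] using h.map _ b T c (by rwa [d']) _ a) _ (h.map z hz T hT hTz v hv)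
  rw [← sub_eq_zero, ← dF_om dζ, ← dF_pull (θ := fun y => Ω (fderiv ℝ T (T' y) (ζ (T' y))))
    (sT.of_le two_le') (Ω.differentiableAt.comp _ dζ),
    dF_congr (θ' := fun y => Ω (ζ y)), dF_om h1, sub_eq_zero] at this
  · exact this
  · filter_upwards [k2, S.ev z T hT] with y a b
    have a' : T' (T y) = y := a
    ext x
    simp [a', S.sp y T b]

lemma Sys.step (S : Sys Ω W Es R) (h : Cl W Es R Y O I) :
    ∃ V, V ⊆ O ∧ Cl W Es R I V fun z => prp Ω (KK Ω I z) := by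
  obtain ⟨V₁, a1, a2, a3, a4⟩ := Cut.shrink h.op h.ne fun y hy => S.cut h hy
  obtain ⟨V, b1, b2, b3, b4⟩ := Cut.shrink (F := fun z => prp Ω (KK Ω I z)) a1 a2 fun y hy =>
    Cut.ann (a4 y hy).gen (μ := fun _ => Ω.flip) (Cn.const _)
      (Eventually.of_forall fun _ _ => Iff.rfl)
  have hs := b3.trans a3
  refine ⟨V, hs, b1, b2, hs.trans h.sub, b4, fun z _ y hy k hk => ?_, fun z hz y hy => ?_,
    fun z hz T hT hTz y hy k hk => ?_⟩
  · rw [S.sk, hk.1 y hy, neg_zero]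
  · exact (S.lag z (h.sub (hs hz)) y).2 fun w hw => hy w (S.es_le h (hs hz) hw)
  · obtain ⟨w, rfl⟩ := (LinearMap.injective_iff_surjective (f := (fderiv ℝ T z : E →ₗ[ℝ] E))).1
      ((injective_iff_map_eq_zero _).2 fun v hv => S.nd v fun w => by
        rw [← S.sp z T hT, show fderiv ℝ T z v = 0 from hv]; simp) k
    exact (S.sp z T hT w y).trans (hy w (S.back h (hs hz) hT (hs hTz) hk))

/-- THE MAXIMAL BUNDLE is characteristic for its orthogonal -/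
theorem Sys.maxI (S : Sys Ω W Es R) (h : Cl W Es R Y O Y) :
    ∃ V I, V ⊆ O ∧ Cl W Es R Y V I ∧ ∀ z ∈ V, ∀ v ∈ I z, ChO Ω I z v := by
  obtain ⟨z₁, hz₁⟩ := h.ne
  obtain ⟨⟨V, I, z⟩, ⟨h1, h2, h3⟩, hm⟩ := exists_max
    (s := {q : Set E × (E → Submodule ℝ E) × E | q.1 ⊆ O ∧ Cl W Es R Y q.1 q.2.1 ∧ q.2.2 ∈ q.1})
    ⟨(O, Y, z₁), Subset.rfl, h, hz₁⟩ (fun q => finrank ℝ (q.2.1 q.2.2)) fun q =>
      (q.2.1 q.2.2).finrank_le
  obtain ⟨V₁, a1, a2, a3, a4, -⟩ := (h2.sm z h3).shrink h2.op h3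
  have c1 := h2.mono a1 ⟨z, a2⟩ a3
  obtain ⟨V₂, b1, b2⟩ := S.step c1
  have c2 := c1.mono b2.op b2.ne b1
  have hs := (b1.trans a3).trans h1
  refine ⟨V₂, I, hs, c2, fun y hy v hv => ?_⟩
  have e : I y = prp Ω (KK Ω I y) := Submodule.eq_of_le_of_finrank_le (b2.le1 y hy) (by
    rw [a4 y (b1 hy)]
    exact hm (V₂, fun z => prp Ω (KK Ω I z), y) ⟨hs, ⟨b2.op, b2.ne, b2.sub, b2.sm,
      fun z hz => (c2.le1 z hz).trans (b2.le1 z hz), b2.le2, b2.map⟩, hy⟩)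
  refine ⟨fun x hx => (S.lag y (c2.sub hy) v).1 (c2.le2 y hy hv) x (c2.le2 y hy hx),
    fun ζ k1 k2 w hw => ?_⟩
  have : w ∈ KK Ω I y := mem_of_perp S.sk S.nd fun x hx => hw x (e ▸ hx)
  exact this.2 ζ k1 k2 v hv

end Crest.Agent.N221.Fr
end
end

-- ▼ part N221/Fr/Tri
section

/-! Row 221, block Fr: the three basic frames of a pair (`PD.Frs`, `PD.IsPair.frs`). -/

set_option autoImplicit false
set_option linter.unusedSectionVars false
set_option maxSynthPendingDepth 3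

open Set Filter Topology Module
open scoped ContDiff

noncomputable section

namespace Crest.Agent.N221

open SB Fr

/-- two `Ω`-orthogonal families, each basic along the other, commute -/
lemma Fr.comm_of_basic {E F G : Type} [NormedAddCommGroup E] [NormedSpace ℝ E]
    [NormedAddCommGroup F] [NormedSpace ℝ F] [NormedAddCommGroup G] [NormedSpace ℝ G]
    [FiniteDimensional ℝ E] {Ω : E →L[ℝ] E →L[ℝ] ℝ} (sk : ∀ v w, Ω v w = -Ω w v)
    (nd : ∀ v, (∀ w, Ω v w = 0) → v = 0) {X : E → F →L[ℝ] E} {Z : E → G →L[ℝ] E} {z : E}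
    (hX : DifferentiableAt ℝ X z) (hZ : DifferentiableAt ℝ Z z) {a : F} {b : G}
    (h0 : ∀ᶠ y in 𝓝 z, Ω (Z y b) (X y a) = 0)
    (h1 : ∀ w, Ω (fderiv ℝ Z z (X z a) b) w = Ω (fderiv ℝ Z z w b) (X z a))
    (h2 : ∀ w, Ω (fderiv ℝ X z (Z z b) a) w = Ω (fderiv ℝ X z w a) (Z z b)) :
    fderiv ℝ Z z (X z a) b = fderiv ℝ X z (Z z b) a := by
  refine sub_eq_zero.1 (nd _ fun w => ?_)
  have d := (Ω.hasFDerivAt.comp z (hZ.hasFDerivAt.clm_apply (hasFDerivAt_const b z))).clm_apply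
    (hX.hasFDerivAt.clm_apply (hasFDerivAt_const a z))
  have e := congrArg (fun L => L w) ((d.congr_of_eventuallyEq (f₁ := fun _ => (0 : ℝ))
    (h0.mono fun y hy => hy.symm)).unique (hasFDerivAt_const _ _))
  simp at e
  rw [map_sub, sub_apply, h1, h2, sk _ (Z z b)]
  linarith

namespace PD

variable {m : ℕ} (P : PD m)

/-- three basic frames on one box: `io` of `I`, `ze` of `Y_s ⊆ I ⊆ E^s`, `nu` of `Y_u ⊆ E^u` -/
structure Frs (U : Set (ZZ m)) {r k l : ℕ} (io : ZZ m → (Fin r → ℝ) →L[ℝ] ZZ m)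
    (ze : ZZ m → (Fin k → ℝ) →L[ℝ] ZZ m) (nu : ZZ m → (Fin l → ℝ) →L[ℝ] ZZ m) : Prop where
  op : IsOpen U
  ne : U.Nonempty
  sub : U ⊆ P.W
  sio : ContDiffOn ℝ ∞ io U
  sze : ContDiffOn ℝ ∞ ze U
  snu : ContDiffOn ℝ ∞ nu U
  iio : ∀ z ∈ U, Function.Injective (io z)
  ize : ∀ z ∈ U, Function.Injective (ze z)
  inu : ∀ z ∈ U, Function.Injective (nu z)
  k0 : 0 < k
  l0 : 0 < l
  ze_io : ∀ z ∈ U, ∀ b, ∃ a, ze z b = io z a
  io_E : ∀ z ∈ U, ∀ a, io z a ∈ P.E false z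
  nu_E : ∀ z ∈ U, ∀ c, nu z c ∈ P.E true z
  orth : ∀ z ∈ U, ∀ b c, om (ze z b) (nu z c) = 0
  mio : ∀ z ∈ U, ∀ T, P.R z T false → T z ∈ U → ∀ a, ∃ a', fderiv ℝ T z (io z a) = io (T z) a'
  mze : ∀ z ∈ U, ∀ T, P.R z T false → T z ∈ U → ∀ b, ∃ b', fderiv ℝ T z (ze z b) = ze (T z) b'
  mnu : ∀ z ∈ U, ∀ T, P.R z T false → T z ∈ U → ∀ c, ∃ c', fderiv ℝ T z (nu z c) = nu (T z) c'
  bio : ∀ z ∈ U, ∀ a a' w, om (fderiv ℝ io z (io z a) a') w = om (fderiv ℝ io z w a') (io z a)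
  bze : ∀ z ∈ U, ∀ c b w, om (fderiv ℝ ze z (nu z c) b) w = om (fderiv ℝ ze z w b) (nu z c)
  bnu : ∀ z ∈ U, ∀ b c w, om (fderiv ℝ nu z (ze z b) c) w = om (fderiv ℝ nu z w c) (ze z b)
  cio : ∀ z ∈ U, ∀ a a', fderiv ℝ io z (io z a) a' = fderiv ℝ io z (io z a') a
  czn : ∀ z ∈ U, ∀ c b, fderiv ℝ ze z (nu z c) b = fderiv ℝ nu z (ze z b) c

variable {P}

lemma omL_sk (v w : ZZ m) : omL m v w = -omL m w v := by simp [om]

lemma omL_nd (v : ZZ m) (h : ∀ w, omL m v w = 0) : v = 0 := om_nd fun w => by simpa using h w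

lemma Ok.sys (h : P.Ok) (i : Bool) : Sys (omL m) P.W (P.E i) fun z T => P.R z T false where
  sk := omL_sk
  nd := omL_nd
  op := h.isOpen
  lag z hz v := ⟨fun hv w hw => by simpa using h.lag hz hw hv, fun hv => h.mem_of_om hz fun w hw => by
    have := hv w hw
    rw [omL_sk] at this
    simpa using this⟩
  leaf z hz := by
    obtain ⟨F, h1, h2, h3⟩ := h.leaf i z hz
    have d : ∀ x : ZZ m, HasFDerivAt F (P.S i (x.1, F x.1)) x.1 →
        ∀ ξ : ZZ m, fderiv ℝ (fun x : ZZ m => (x.1, F x.1)) x ξ = (ξ.1, P.S i (x.1, F x.1) ξ.1) :=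
      fun x hx ξ => by
        rw [show fderiv ℝ (fun x : ZZ m => (x.1, F x.1)) x = _ from
          (hasFDerivAt_fst.prodMk (hx.comp x hasFDerivAt_fst)).fderiv]
        rfl
    refine ⟨fun x => (x.1, F x.1), (contDiff_fst.prodMk ((h1.of_le two_le').comp
      contDiff_fst)).contDiffAt, by simp [h2], fun v hv => ?_, ?_⟩
    · rw [d z h3.self_of_nhds, h2]
      exact Prod.ext rfl (mem_E.1 hv).symm
    · filter_upwards [continuousAt_fst.eventually h3] with x hx ξ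
      rw [d x hx]
      exact mk_mem_E _
  smooth z T hT := h.smooth z T _ hT
  ev z T hT := h.ev z T _ hT
  inv z T hT := h.inv z T _ hT
  sp z T hT v w := by simpa using h.sp z T _ hT v w

theorem IsPair.frs (h : P.Ok) {O : Set (ZZ m)} {Y : Bool → ZZ m → Submodule ℝ (ZZ m)}
    (hY : P.IsPair O Y) : ∃ (U : Set (ZZ m)) (r k l : ℕ) (io : ZZ m → (Fin r → ℝ) →L[ℝ] ZZ m)
      (ze : ZZ m → (Fin k → ℝ) →L[ℝ] ZZ m) (nu : ZZ m → (Fin l → ℝ) →L[ℝ] ZZ m),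
      U ⊆ O ∧ P.Frs U io ze nu := by
  have hsm : ∀ i, ∀ z ∈ O, SmAt ∞ (Y i) z := fun i z hz => by
    obtain ⟨p, h1, h2⟩ := hY.smooth i
    exact ⟨p, Cn.of_on h1 hY.isOpen hz, by
      filter_upwards [hY.isOpen.mem_nhds hz] with y hy using h2 y hy⟩
  obtain ⟨V, I, hV, c, hI⟩ := (h.sys false).maxI (Y := Y false) (O := O)
    ⟨hY.isOpen, hY.ne, hY.sub, hsm false, fun _ _ => le_rfl, hY.le false,
      fun z hz T a b => hY.map false z hz T false a b⟩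
  obtain ⟨r, U₁, io, a1, a2, a3, a4, a5⟩ := basic omL_sk omL_nd c.op c.ne c.sm
  obtain ⟨k, U₂, ze, b1, b2, b3, b4, b5⟩ := basic omL_sk omL_nd a1 a2 fun z hz =>
    hsm false z (hV (a3 hz))
  obtain ⟨l, U, nu, c1, c2, c3, c4, c5⟩ := basic omL_sk omL_nd b1 b2 fun z hz =>
    hsm true z (hV (a3 (b3 hz)))
  have s1 : U ⊆ U₁ := c3.trans b3
  have sV : U ⊆ V := s1.trans a3
  have sO : U ⊆ O := sV.trans hV
  have mI : ∀ z ∈ U, ∀ v, v ∈ I z ↔ ∃ a, io z a = v := fun z hz v => by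
    rw [← (a5 z (s1 hz)).2.1]; rfl
  have mS : ∀ z ∈ U, ∀ v, v ∈ Y false z ↔ ∃ a, ze z a = v := fun z hz v => by
    rw [← (b5 z (c3 hz)).2.1]; rfl
  have mU : ∀ z ∈ U, ∀ v, v ∈ Y true z ↔ ∃ a, nu z a = v := fun z hz v => by
    rw [← (c5 z hz).2.1]; rfl
  have pos : ∀ {j : ℕ} {i : Bool} {e : ZZ m → (Fin j → ℝ) →L[ℝ] ZZ m},
      (∀ z ∈ U, ∀ v, v ∈ Y i z ↔ ∃ a, e z a = v) → 0 < j := fun {j i e} he => by
    obtain ⟨z, hz⟩ := c2
    refine Nat.pos_of_ne_zero ?_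
    rintro rfl
    refine hY.ne_bot i z (sO hz) ((Submodule.eq_bot_iff _).2 fun v hv => ?_)
    obtain ⟨a, rfl⟩ := (he z hz v).1 hv
    rw [Subsingleton.elim a 0, map_zero]
  have ort : ∀ z ∈ U, ∀ v ∈ Y false z, ∀ u ∈ Y true z, omL m v u = 0 := fun z hz v hv u hu => by
    rw [omL_sk, omL_apply, hY.orth z (sO hz) u hu v hv, neg_zero]
  have ch : ∀ i, ∀ z ∈ U, ∀ u ∈ Y (!i) z, ChO (omL m) (Y i) z u := fun i z hz u hu =>
    ⟨fun y hy => by
      cases i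
      · exact ort z hz y hy u hu
      · simpa using hY.orth z (sO hz) y hy u hu,
    fun ζ k1 k2 w hw => by
      simpa using hY.ch i z (sO hz) ζ k1 k2 u hu w fun y hy => by simpa using hw y hy⟩
  have da : ∀ {j : ℕ} {e : ZZ m → (Fin j → ℝ) →L[ℝ] ZZ m}, ContDiffOn ℝ ∞ e U → ∀ z ∈ U,
      DifferentiableAt ℝ e z := fun he z hz =>
    (he.contDiffAt (c1.mem_nhds hz)).differentiableAt (by simp)
  have bio := fun z (hz : z ∈ U) a =>
    (a5 z (s1 hz)).2.2 _ (hI z (sV hz) _ ((mI z hz _).2 ⟨a, rfl⟩))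
  have bze := fun z (hz : z ∈ U) a =>
    (b5 z (c3 hz)).2.2 _ (ch false z hz _ ((mU z hz _).2 ⟨a, rfl⟩))
  have bnu := fun z (hz : z ∈ U) a => (c5 z hz).2.2 _ (ch true z hz _ ((mS z hz _).2 ⟨a, rfl⟩))
  have ioE : ∀ z ∈ U, ∀ a, io z a ∈ P.E false z := fun z hz a =>
    c.le2 z (sV hz) ((mI z hz _).2 ⟨a, rfl⟩)
  have sw : ∀ {α : Type} {f : α → ZZ m} {v : ZZ m}, (∃ a, f a = v) → ∃ a, v = f a :=
    fun ⟨a, ha⟩ => ⟨a, ha.symm⟩
  refine ⟨U, r, k, l, io, ze, nu, sO, c1, c2, sO.trans hY.sub, a4.mono s1, b4.mono c3, c4,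
    fun z hz => (a5 z (s1 hz)).1, fun z hz => (b5 z (c3 hz)).1, fun z hz => (c5 z hz).1,
    pos mS, pos mU, fun z hz b => sw ((mI z hz _).1 (c.le1 z (sV hz) ((mS z hz _).2 ⟨b, rfl⟩))),
    ioE, fun z hz a => hY.le true z (sO hz) ((mU z hz _).2 ⟨a, rfl⟩),
    fun z hz b a => by simpa using ort z hz _ ((mS z hz _).2 ⟨b, rfl⟩) _ ((mU z hz _).2 ⟨a, rfl⟩),
    fun z hz T k1 k2 a => sw ((mI _ k2 _).1
      (c.map z (sV hz) T k1 (sV k2) _ ((mI z hz _).2 ⟨a, rfl⟩))),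
    fun z hz T k1 k2 a => sw ((mS _ k2 _).1
      (hY.map false z (sO hz) T false k1 (sO k2) _ ((mS z hz _).2 ⟨a, rfl⟩))),
    fun z hz T k1 k2 a => sw ((mU _ k2 _).1
      (hY.map true z (sO hz) T false k1 (sO k2) _ ((mU z hz _).2 ⟨a, rfl⟩))),
    fun z hz a a' w => by simpa using bio z hz a a' w,
    fun z hz a a' w => by simpa using bze z hz a a' w,
    fun z hz a a' w => by simpa using bnu z hz a a' w,
    fun z hz a a' => comm_of_basic omL_sk omL_nd (da (a4.mono s1) z hz) (da (a4.mono s1) z hz) ?_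
      (bio z hz a a') (bio z hz a' a),
    fun z hz a b => comm_of_basic omL_sk omL_nd (da c4 z hz) (da (b4.mono c3) z hz) ?_
      (bze z hz a b) (bnu z hz b a)⟩
  · filter_upwards [c1.mem_nhds hz] with y hy
    simpa using h.lag (hY.sub (sO hy)) (ioE y hy a') (ioE y hy a)
  · filter_upwards [c1.mem_nhds hz] with y hy
    exact ort y hy _ ((mS y hy _).2 ⟨b, rfl⟩) _ ((mU y hy _).2 ⟨a, rfl⟩)

lemma Frs.mono {U V : Set (ZZ m)} {r k l : ℕ} {io : ZZ m → (Fin r → ℝ) →L[ℝ] ZZ m}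
    {ze : ZZ m → (Fin k → ℝ) →L[ℝ] ZZ m} {nu : ZZ m → (Fin l → ℝ) →L[ℝ] ZZ m}
    (h : P.Frs U io ze nu) (hV : IsOpen V) (hne : V.Nonempty) (s : V ⊆ U) : P.Frs V io ze nu :=
  ⟨hV, hne, s.trans h.sub, h.sio.mono s, h.sze.mono s, h.snu.mono s, fun z hz => h.iio z (s hz),
    fun z hz => h.ize z (s hz), fun z hz => h.inu z (s hz), h.k0, h.l0,
    fun z hz => h.ze_io z (s hz), fun z hz => h.io_E z (s hz), fun z hz => h.nu_E z (s hz),
    fun z hz => h.orth z (s hz), fun z hz T a b => h.mio z (s hz) T a (s b),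
    fun z hz T a b => h.mze z (s hz) T a (s b), fun z hz T a b => h.mnu z (s hz) T a (s b),
    fun z hz => h.bio z (s hz), fun z hz => h.bze z (s hz), fun z hz => h.bnu z (s hz),
    fun z hz => h.cio z (s hz), fun z hz => h.czn z (s hz)⟩

end PD

end Crest.Agent.N221
end
end

-- ▼ part N221/NB/Lift
section

/-! Row 221, block NB: lift of the basic frames to `ZL m = ZZ m × ℝ`. -/

set_option autoImplicit false
set_option maxSynthPendingDepth 3

open Set Metric Filter Topology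
open scoped ContDiff RealInnerProductSpace
open Crest.GeometryTopology.Submanifold
open Crest.Agent.R241.DDefs Crest.Agent.R241.D2
open Crest.Agent.R208.J Crest.Agent.R208.L

noncomputable section

namespace Crest.Agent.N221

open NB

variable {m : ℕ} {F F' : Type} [NormedAddCommGroup F] [NormedSpace ℝ F] [NormedAddCommGroup F']
  [NormedSpace ℝ F']

/-- the lifted family -/
def lX (X : ZZ m → F →L[ℝ] ZZ m) (y : ZL m) : F →L[ℝ] ZL m := lif y.1 ∘L X y.1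

lemma lX_apply (X : ZZ m → F →L[ℝ] ZZ m) (y : ZL m) (g : F) :
    lX X y g = (X y.1 g, -⟪y.1.2, (X y.1 g).1⟫) := rfl

lemma pull_apply (v w : ZL m) : pull (omL m) v w = om v.1 w.1 := by simp [pull]

lemma contDiff_lif : ContDiff ℝ ∞ (lif (m := m)) :=
  contDiff_clm_apply_iff.2 fun _ => contDiff_const.prodMk
    ((contDiff_snd.inner ℝ contDiff_const).neg)

lemma contDiffOn_lX {X : ZZ m → F →L[ℝ] ZZ m} {U : Set (ZZ m)} (h : ContDiffOn ℝ ∞ X U) :
    ContDiffOn ℝ ∞ (lX X) (U ×ˢ univ) :=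
  (contDiff_lif.comp contDiff_fst).contDiffOn.clm_comp (h.comp contDiffOn_fst fun _ h => h.1)

lemma fderiv_lX {X : ZZ m → F →L[ℝ] ZZ m} {y : ZL m} (h : DifferentiableAt ℝ X y.1) (v : ZL m)
    (g : F) : fderiv ℝ (lX X) y v g = (fderiv ℝ X y.1 v.1 g,
      -(⟪y.1.2, (fderiv ℝ X y.1 v.1 g).1⟫ + ⟪v.1.2, (X y.1 g).1⟫)) := by
  have d0 : DifferentiableAt ℝ (lX X) y :=
    ((contDiff_lif.differentiable (by simp) y.1).comp y differentiableAt_fst).clm_comp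
      (h.comp y differentiableAt_fst)
  have d1 := (h.hasFDerivAt.comp y hasFDerivAt_fst).clm_apply (hasFDerivAt_const g y)
  have d2 := d1.prodMk (((hasFDerivAt_snd.comp y (hasFDerivAt_fst (𝕜 := ℝ) (p := y))).inner ℝ
    (hasFDerivAt_fst.comp y d1)).neg)
  rw [← Fr.fderiv_app d0, show fderiv ℝ (fun z => lX X z g) y = _ from d2.fderiv]
  simp

lemma lX_comm {X : ZZ m → F →L[ℝ] ZZ m} {Z : ZZ m → F' →L[ℝ] ZZ m} {y : ZL m}
    (hX : DifferentiableAt ℝ X y.1) (hZ : DifferentiableAt ℝ Z y.1) {a : F} {b : F'}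
    (h0 : om (X y.1 a) (Z y.1 b) = 0)
    (h : fderiv ℝ Z y.1 (X y.1 a) b = fderiv ℝ X y.1 (Z y.1 b) a) :
    fderiv ℝ (lX Z) y (lX X y a) b = fderiv ℝ (lX X) y (lX Z y b) a := by
  rw [fderiv_lX hZ, fderiv_lX hX, lX_apply, lX_apply, h, sub_eq_zero.1 h0]

lemma lX_bas {X : ZZ m → F →L[ℝ] ZZ m} {y v : ZL m} (hX : DifferentiableAt ℝ X y.1)
    (h : ∀ g w, om (fderiv ℝ X y.1 v.1 g) w = om (fderiv ℝ X y.1 w g) v.1) :
    NB.Bas (pull (omL m)) (lX X) y v := fun g w => by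
  rw [pull_apply, pull_apply, fderiv_lX hX, fderiv_lX hX, h]

/-- LIFT -/
theorem PD.Frs.lift {P : PD m} (h : P.Ok) {U : Set (ZZ m)} {r k l : ℕ}
    {io : ZZ m → (Fin r → ℝ) →L[ℝ] ZZ m} {ze : ZZ m → (Fin k → ℝ) →L[ℝ] ZZ m}
    {nu : ZZ m → (Fin l → ℝ) →L[ℝ] ZZ m} (hF : P.Frs U io ze nu) :
    NB.Frs (pull (omL m)) (U ×ˢ univ) (lX io) (lX ze) (lX nu) := by
  have da : ∀ {j : ℕ} {e : ZZ m → (Fin j → ℝ) →L[ℝ] ZZ m}, ContDiffOn ℝ ∞ e U → ∀ z ∈ U,
      DifferentiableAt ℝ e z := fun he z hz =>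
    (he.contDiffAt (hF.op.mem_nhds hz)).differentiableAt (by simp)
  have iso : ∀ z ∈ U, ∀ a a', om (io z a) (io z a') = 0 := fun z hz a a' =>
    h.lag (hF.sub hz) (hF.io_E z hz a) (hF.io_E z hz a')
  exact ⟨fun v w => by rw [pull_apply, pull_apply, om_antisymm], hF.op.prod isOpen_univ,
    contDiffOn_lX hF.sio, contDiffOn_lX hF.sze, contDiffOn_lX hF.snu,
    fun y hy g hg => hF.iio _ hy.1 (by
      rw [map_zero]
      exact om_nd fun w => (pull_apply _ (w, 0)).symm.trans (hg _)),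
    fun y hy a b e => hF.ize _ hy.1 (congrArg Prod.fst e),
    fun y hy a b e => hF.inu _ hy.1 (congrArg Prod.fst e),
    fun y hy g => (hF.ze_io _ hy.1 g).imp fun a ha => by rw [lX_apply, lX_apply, ha],
    fun y hy a a' => (pull_apply _ _).trans (iso _ hy.1 a a'),
    fun y hy g => lX_bas (da hF.sio _ hy.1) (hF.bio _ hy.1 g),
    fun y hy g => lX_bas (da hF.snu _ hy.1) (hF.bnu _ hy.1 g),
    fun y hy a a' => lX_comm (da hF.sio _ hy.1) (da hF.sio _ hy.1) (iso _ hy.1 a a')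
      (hF.cio _ hy.1 a a'),
    fun y hy a b => lX_comm (da hF.sze _ hy.1) (da hF.snu _ hy.1) (hF.orth _ hy.1 a b)
      (hF.czn _ hy.1 b a).symm⟩

namespace Cov

variable {n N : ℕ} {a : ℝ} {S : Set (Euc N)} {G : Geo n N (-(a ^ 2)) S} (C : Cov G)
  {f f' : FF n N m} {y : ZL m} {g : Euc n → Euc n} (H : Hyp n N a S) (hm : m + 1 = n)
  (hf : C.Frm f)
include H hm hf








end Cov

end Crest.Agent.N221
end
end

-- ▼ part N221/Ni/Gl2

/-! Row 221, block Ni (helper34): the flow box `NB.Box` on the real objects, and `NpS`. -/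

set_option autoImplicit false
set_option linter.unusedSectionVars false
set_option linter.unusedVariables false
set_option maxSynthPendingDepth 3

open Set Filter Topology Metric
open scoped ContDiff RealInnerProductSpace
open Crest.GeometryTopology.Submanifold
open Crest.Agent.R241.DDefs Crest.Agent.R241.D2
open Crest.Agent.R208.J Crest.Agent.R208.L

noncomputable section

namespace Crest.Agent.N221

namespace Cov

variable {n N m : ℕ} {a : ℝ} {S : Set (Euc N)} {G : Geo n N (-(a ^ 2)) S} {C : Cov G}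
variable {f : FF n N m} {U : Set (ZZ m)} {r k l : ℕ} {io : ZZ m → (Fin r → ℝ) →L[ℝ] ZZ m}
  {ze : ZZ m → (Fin k → ℝ) →L[ℝ] ZZ m} {nu : ZZ m → (Fin l → ℝ) →L[ℝ] ZZ m} {z0 : ZZ m}

lemma frs_lt (hF : (C.pd f).Frs U io ze nu) {y : ZL m} (hy : y ∈ U ×ˢ (univ : Set ℝ)) :
    ‖y.1‖ < C.rr m := mem_ball_zero_iff.1 (hF.sub hy.1)

/-- the field `pol` -/
lemma pol_of (hP : PolyS) (H : Hyp n N a S) (hm : m + 1 = n) (hf : C.Frm f)
    (hF : (C.pd f).Frs U io ze nu) (hz : z0 ∈ U) :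
    NB.Pol (C.dat H) (U ×ˢ univ) (lX nu) (PsiU H hf) (z0, 0) := by
  obtain ⟨ρ, ρ0, h⟩ := hP n N m a S G C f z0 H hm hf (mem_ball_zero_iff.1 (hF.sub hz))
  refine ⟨ρ, ρ0, fun r hr hU τ₀ c₁ g K ε b h1 h2 h3 h4 h5 => ?_⟩
  have hU' : closedBall z0 r ⊆ U := fun z hz =>
    (hU (show (z, (0 : ℝ)) ∈ closedBall (z0, (0 : ℝ)) r by
      rw [mem_closedBall, Prod.dist_eq, dist_self]
      exact max_le hz (dist_nonneg.trans hz))).1
  obtain ⟨T0, hT⟩ := h l nu U r hr hF.op hU' hF.snu hF.inu hF.nu_E hF.mnu τ₀ c₁ g K ε b h1 h2 h3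
    h4 h5
  refine ⟨T0, fun T hT0 j F t c e z hj hi hl => ?_⟩
  have ex : ∀ i, ∃ γ : Euc n → Euc n, i ≤ j → C.Deck γ ∧ ∀ p, (F i p).v = C.mv γ (t i) p.v :=
    fun i => by
      by_cases h : i ≤ j
      · obtain ⟨γ, hγ⟩ := (hi i h).1
        exact ⟨γ, fun _ => hγ⟩
      · exact ⟨id, fun h' => absurd h' h⟩
  choose γ hγ using ex
  obtain ⟨τ, t1, t2, s, hs⟩ := hT T hT0 j γ t (fun i τ => (c i τ).v) e z hj (fun i hij => by
    obtain ⟨-, a2, a3, a4⟩ := hi i hij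
    refine ⟨(hγ i hij).1, a2, fun τ hτ => ?_, fun τ hτ => ?_⟩
    · obtain ⟨b1, b2, b3, b4, b5⟩ := a3 τ hτ
      refine ⟨(c i τ).un, ss_iff.1 b1, b2, ?_, b4, b5⟩
      rw [← (hγ i hij).2, b3, PsiU_v hm hf (frs_lt hF (hU b2))]
    · obtain ⟨b1, b2⟩ := a4 τ hτ
      exact ⟨b1, by rw [b2, PsiU_v hm hf (frs_lt hF (hU b1))]⟩) hl
  obtain ⟨e', he', h'⟩ := exists_mv (H := H) C.deck_id s
  refine ⟨τ, t1, t2, s, e', he', ?_⟩
  change C.du _ _ ≤ ε
  rw [h', h']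
  exact hs

/-- the flow box -/
lemma box_of (H : Hyp n N a S) (hm : m + 1 = n) (hf : C.Frm f) (ok : (C.pd f).Ok)
    (hF : (C.pd f).Frs U io ze nu) (hz : z0 ∈ U)
    (per : ∃ (γ : Euc n → Euc n) (l : ℝ), C.Deck γ ∧ 0 < l ∧
      C.mv γ l (C.Ps f (z0, 0)) = C.Ps f (z0, 0))
    (pol : NB.Pol (C.dat H) (U ×ˢ univ) (lX nu) (PsiU H hf) (z0, 0)) :
    NB.Box (C.dat H) (NB.pull (omL m)) (U ×ˢ univ) (lX io) (lX ze) (lX nu) (PsiU H hf)
      (z0, 0) := by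
  have m0 : ((z0, 0) : ZL m) ∈ U ×ˢ (univ : Set ℝ) := ⟨hz, trivial⟩
  have oU : IsOpen (U ×ˢ (univ : Set ℝ)) := hF.op.prod isOpen_univ
  have pv : ∀ y ∈ U ×ˢ (univ : Set ℝ), (PsiU H hf y).v = C.Ps f y := fun y hy =>
    PsiU_v hm hf (frs_lt hF hy)
  refine ⟨PD.Frs.lift ok hF, ?_, ?_, m0, ?_, ?_, ?_, ?_, ?_, ?_, ?_, pol⟩
  · haveI : Nonempty (Fin k) := ⟨⟨0, hF.k0⟩⟩
    infer_instance
  · haveI : Nonempty (Fin l) := ⟨⟨0, hF.l0⟩⟩
    infer_instance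
  · intro y hy
    refine ContinuousAt.continuousWithinAt (tendsto_iff_dist_tendsto_zero.2 ?_)
    refine (C.cont_Ps H hm flS psS hf (frs_lt hF hy)).congr' ?_
    filter_upwards [oU.mem_nhds hy] with x hx
    change _ = C.du _ _
    rw [pv x hx, pv y hy]
  · obtain ⟨K, K0, V, hV, h⟩ := C.bil_Ps H hm flS psS hf (frs_lt hF m0)
    refine ⟨K, K0, V ∩ U ×ˢ univ, inter_mem hV (oU.mem_nhds m0), fun x hx x' hx' => ?_⟩
    change C.du _ _ ≤ _ ∧ _ ≤ K * C.du _ _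
    rw [pv x hx.2, pv x' hx'.2]
    exact (h x hx.1 x' hx'.1).2
  · intro V hV
    obtain ⟨δ, δ0, h⟩ := C.opn_Ps H hm psS hf (frs_lt hF m0) hV
    refine mem_of_superset (ball_mem_nhds _ δ0) fun p hp => ?_
    obtain ⟨x, hx, h1, h2⟩ := h p.v p.un (by rw [← pv _ m0]; exact hp)
    exact ⟨x, hx, UV.ext' (by rw [PsiU_v hm hf h1, h2])⟩
  · rintro T e ⟨g, hg, he⟩ y hy y' hy' h
    obtain ⟨φ, h1, h2, h3⟩ := C.loc_Ps H hm (t := T) hf hg hF.op hF.sub hy.1 hy'.1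
      (by rw [← pv y hy, ← he, h, pv y' hy'])
    refine ⟨φ, h1, h2, ?_⟩
    filter_upwards [h3] with x ⟨b1, b2, b3, b4, b5⟩
    exact ⟨UV.ext' (by rw [he, pv x ⟨b1, trivial⟩, b3, pv _ ⟨b2, trivial⟩]), b4,
      b5 _ io hF.mio, b5 _ ze hF.mze⟩
  · intro c g h
    rw [ss_iff, pv _ (h 0 ⟨le_rfl, zero_le_one⟩).1, pv _ (h 1 ⟨zero_le_one, le_rfl⟩).1]
    exact C.leaf_Ps H hm hf hF.op hF.sub hF.sio hF.io_E fun t ht => ⟨(h t ht).1.1, (h t ht).2⟩
  · intro c g g0 c0 hd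
    have h := C.trv_Ps H hm hf (hF.sub hz) (hF.nu_E z0 hz g)
      (fun e => g0 (hF.inu z0 hz (by rw [e, map_zero]))) c0 hd
    have ev : ∀ᶠ t in 𝓝[>] (0 : ℝ), c t ∈ U ×ˢ (univ : Set ℝ) :=
      nhdsWithin_le_nhds (hd.continuousAt.eventually (oU.mem_nhds (c0 ▸ m0)))
    refine (h.and_eventually ev).mono fun t ⟨h1, h2⟩ => ?_
    simp only [dat]
    rw [pv _ h2, pv _ m0]
    exact h1
  · obtain ⟨γ, T, hγ, T0, h⟩ := per
    obtain ⟨e, he, h'⟩ := exists_mv (H := H) hγ T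
    exact ⟨T, T0, e, he, UV.ext' (by rw [h', pv _ m0, h])⟩

end Cov

/-- NO BRANCHING from the abstract block and the polygon -/
theorem npS_of (h1 : NB.NoS) (h2 : PolyS) : NpS := by
  rintro n N m a S G C f H hm - hf ok ⟨O, Y, hY⟩
  obtain ⟨U, r, k, l, io, ze, nu, -, hF⟩ := hY.frs ok
  obtain ⟨z0, hz, per⟩ := C.per_Ps H hm hf hF.op hF.ne hF.sub
  exact h1 _ _ _ _ _ _ _ a _ _ _ _ _ _ _ Cov.dyn
    (Cov.box_of H hm hf ok hF hz per (Cov.pol_of h2 H hm hf hF hz))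

end Crest.Agent.N221
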